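import Crest.Agent.R92.Core4

/-! Lyapunov barrier arguments for maxima of affine functions. -/

set_option autoImplicit false

namespace Crest.Agent.R92

open Finset Set Filter Topology

variable {d : ℕ}

/-- A solution on `[a, b]`, in the sense of left derivatives. -/
def Sol (g : (Fin d → ℝ) → (Fin d → ℝ)) (x : ℝ → Fin d → ℝ) (a b : ℝ) : Prop :=
  ContinuousOn x (Icc a b) ∧ ∀ t ∈ Ioc a b, HasDerivWithinAt x (g (x t)) (Iic t) t

lemma Sol.mono {g : (Fin d → ℝ) → (Fin d → ℝ)} {x : ℝ → Fin d → ℝ} {a b a' b' : ℝ}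
    (h : Sol g x a b) (ha : a ≤ a') (hb : b' ≤ b) : Sol g x a' b' :=
  ⟨h.1.mono (Icc_subset_Icc ha hb), fun t ht => h.2 t (Ioc_subset_Ioc ha hb ht)⟩

noncomputable def VV (A : Set ((Fin d → ℝ) × ℝ)) (x : Fin d → ℝ) : ℝ :=
  sSup ((fun a => ev a x) '' A)

lemma IsMaxAt.VV_eq {A : Set ((Fin d → ℝ) × ℝ)} {x : Fin d → ℝ} {a : (Fin d → ℝ) × ℝ}
    (h : IsMaxAt A x a) : VV A x = ev a x := by
  apply IsGreatest.csSup_eq
  refine ⟨⟨a, h.1, rfl⟩, ?_⟩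
  rintro _ ⟨a', ha', rfl⟩
  exact h.2 a' ha'

def Pos (d : ℕ) : Set (Fin d → ℝ) := {x | ∀ i, 0 < x i}

lemma Pos_open : IsOpen (Pos d) := by
  have : Pos d = ⋂ i, {x : Fin d → ℝ | 0 < x i} := by ext x; simp [Pos]
  rw [this]
  exact isOpen_iInter_of_finite fun i => isOpen_lt continuous_const (continuous_apply i)

lemma Pos_convex : Convex ℝ (Pos d) := by
  intro x hx y hy a b ha hb hab i
  have h1 := hx i
  have h2 := hy i
  simp only [Pi.add_apply, Pi.smul_apply, smul_eq_mul]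
  rcases eq_or_lt_of_le ha with h | h
  · have : b = 1 := by linarith
    rw [← h, this]; linarith
  · have := mul_pos h h1
    have := mul_nonneg hb h2.le
    linarith

lemma ev_comb (α : (Fin d → ℝ) × ℝ) (x y : Fin d → ℝ) {a b : ℝ} (hab : a + b = 1) :
    ev α (a • x + b • y) = a * ev α x + b * ev α y := by
  unfold ev
  simp only [Pi.add_apply, Pi.smul_apply, smul_eq_mul, mul_add, sum_add_distrib, mul_sub, mul_sum]
  have : α.2 = a * α.2 + b * α.2 := by rw [← add_mul, hab, one_mul]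
  have h1 : ∑ i, α.1 i * (a * x i) = ∑ i, a * (α.1 i * x i) := sum_congr rfl fun i _ => by ring
  have h2 : ∑ i, α.1 i * (b * y i) = ∑ i, b * (α.1 i * y i) := sum_congr rfl fun i _ => by ring
  rw [h1, h2]
  linarith

lemma ev_le_VV {A : Set ((Fin d → ℝ) × ℝ)} (hA : ∀ x ∈ Pos d, ∃ a, IsMaxAt A x a)
    {x : Fin d → ℝ} (hx : x ∈ Pos d) {α : (Fin d → ℝ) × ℝ} (hα : α ∈ A) : ev α x ≤ VV A x := by
  obtain ⟨a, ha⟩ := hA x hx
  rw [ha.VV_eq]
  exact ha.2 α hα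

lemma VV_cont {A : Set ((Fin d → ℝ) × ℝ)} (hA : ∀ x ∈ Pos d, ∃ a, IsMaxAt A x a) :
    ContinuousOn (VV A) (Pos d) := by
  apply ConvexOn.continuousOn Pos_open
  refine ⟨Pos_convex, fun x hx y hy a b ha hb hab => ?_⟩
  obtain ⟨α, hα⟩ := hA _ (Pos_convex hx hy ha hb hab)
  rw [hα.VV_eq, ev_comb α x y hab]
  have h1 := ev_le_VV hA hx hα.1
  have h2 := ev_le_VV hA hy hα.1
  simp only [smul_eq_mul]
  gcongr

lemma barrier {A : Set ((Fin d → ℝ) × ℝ)} (hA : ∀ x ∈ Pos d, ∃ a, IsMaxAt A x a)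
    {f : (Fin d → ℝ) → (Fin d → ℝ)} {x : ℝ → Fin d → ℝ} {a b κ c : ℝ} (hab : a ≤ b)
    (hx : Sol f x a b) (hpos : ∀ t ∈ Icc a b, x t ∈ Pos d) (hκ : 0 ≤ κ)
    (hgood : ∀ t ∈ Ioc a b, ∃ α, IsMaxAt A (x t) α ∧
      (c ≤ ev α (x t) → ∑ i, α.1 i * f (x t) i < -κ))
    (hc : c ≤ VV A (x b)) : VV A (x b) + κ * (b - a) ≤ VV A (x a) := by
  have hG : ContinuousOn (fun t => VV A (x t) + κ * t) (Icc a b) :=
    ((VV_cont hA).comp hx.1 hpos).add (by fun_prop)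
  obtain ⟨t, ht, hmax⟩ := isCompact_Icc.exists_isMaxOn (nonempty_Icc.2 hab) hG
  have hb : VV A (x b) + κ * b ≤ VV A (x t) + κ * t := hmax (right_mem_Icc.2 hab)
  rcases eq_or_lt_of_le ht.1 with h | h
  · rw [← h] at hb; linarith
  exfalso
  obtain ⟨α, hα, hα'⟩ := hgood t ⟨h, ht.2⟩
  have h1 : κ * t ≤ κ * b := by gcongr; exact ht.2
  have h2 := hα' (by rw [← hα.VV_eq]; linarith)
  have hder : HasDerivWithinAt (fun s => ev α (x s) + κ * s)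
      (∑ i, α.1 i * f (x t) i + κ) (Iio t) t := by
    have h3 := (hx.2 t ⟨h, ht.2⟩).mono Iio_subset_Iic_self
    have h4 : HasDerivWithinAt (fun s => ∑ i, α.1 i * x s i) (∑ i, α.1 i * f (x t) i) (Iio t) t :=
      HasDerivWithinAt.fun_sum fun i _ => (hasDerivWithinAt_pi.1 h3 i).const_mul _
    have h5 : HasDerivWithinAt (fun s => κ * s) κ (Iio t) t := by
      simpa using (hasDerivWithinAt_id t (Iio t)).const_mul κ
    exact (h4.sub_const α.2).add h5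
  rw [hasDerivWithinAt_iff_tendsto_slope' (by simp)] at hder
  have h3 := hder.eventually_lt_const (show ∑ i, α.1 i * f (x t) i + κ < 0 by linarith)
  obtain ⟨s, hs1, hs2⟩ := (h3.and (Ioo_mem_nhdsLT h)).exists
  rw [slope_def_field, div_neg_iff] at hs1
  have hs3 : s ∈ Icc a b := ⟨hs2.1.le, hs2.2.le.trans ht.2⟩
  have h4 : VV A (x s) + κ * s ≤ VV A (x t) + κ * t := hmax hs3
  have h5 := ev_le_VV hA (hpos s hs3) hα.1
  rw [hα.VV_eq] at h4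
  rcases hs1 with h6 | h6
  · linarith [h6.1]
  · linarith [h6.2, hs2.2]

structure Nice (f : (Fin d → ℝ) → (Fin d → ℝ)) (P : Set (Fin d → ℝ)) (c₀ x₀ : Fin d → ℝ)
    (G : Set (Fin d → ℝ)) : Prop where
  repr : ∃ C, IsClosed C ∧ Convex ℝ C ∧ G = P ∩ C
  mem0 : c₀ ∈ G
  mem1 : x₀ ∈ G
  inv : ∀ (x : ℝ → Fin d → ℝ) (a b : ℝ), a ≤ b → Sol f x a b → (∀ t ∈ Icc a b, x t ∈ P) →
    x a ∈ G → x b ∈ G
  attr : ∀ (x : ℝ → Fin d → ℝ) (K : Set (Fin d → ℝ)), IsCompact K → K ⊆ P →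
    (∀ b, Sol f x 0 b) → (∀ t, 0 ≤ t → x t ∈ K) → ∃ T, 0 ≤ T ∧ x T ∈ G

lemma Nice.base {f : (Fin d → ℝ) → (Fin d → ℝ)} {P : Set (Fin d → ℝ)} {c₀ x₀ : Fin d → ℝ}
    (h0 : c₀ ∈ P) (h1 : x₀ ∈ P) : Nice f P c₀ x₀ P :=
  ⟨⟨univ, isClosed_univ, convex_univ, by simp⟩, h0, h1,
    fun _ _ _ hab _ h _ => h _ (right_mem_Icc.2 hab),
    fun _ _ _ hK _ h => ⟨0, le_rfl, hK (h 0 le_rfl)⟩⟩

lemma Nice.subset {f : (Fin d → ℝ) → (Fin d → ℝ)} {P : Set (Fin d → ℝ)} {c₀ x₀ : Fin d → ℝ}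
    {G : Set (Fin d → ℝ)} (h : Nice f P c₀ x₀ G) : G ⊆ P := by
  obtain ⟨C, _, _, rfl⟩ := h.repr
  exact inter_subset_left

lemma Nice.step {f : (Fin d → ℝ) → (Fin d → ℝ)} {P : Set (Fin d → ℝ)} {c₀ x₀ : Fin d → ℝ}
    {G : Set (Fin d → ℝ)} (h : Nice f P c₀ x₀ G) (hP : P ⊆ Pos d)
    {rate : (Fin d → ℝ) → ℝ} (hr : Continuous rate) (hr' : ∀ x ∈ Pos d, 0 < rate x)
    {A : Set ((Fin d → ℝ) × ℝ)} (hA : ∀ x ∈ Pos d, ∃ a, IsMaxAt A x a) {c : ℝ}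
    (hgood : ∀ x ∈ G, ∃ α, IsMaxAt A x α ∧ (c ≤ ev α x → ∑ i, α.1 i * f x i ≤ -rate x))
    (h0 : ∀ a ∈ A, ev a c₀ ≤ c) (h1 : ∀ a ∈ A, ev a x₀ ≤ c) :
    Nice f P c₀ x₀ (G ∩ {x | ∀ a ∈ A, ev a x ≤ c}) := by
  have hiff : ∀ x ∈ Pos d, (∀ a ∈ A, ev a x ≤ c) ↔ VV A x ≤ c := by
    intro x hx
    constructor
    · intro h
      obtain ⟨a, ha⟩ := hA x hx
      rw [ha.VV_eq]
      exact h a ha.1
    · intro h a ha
      exact (ev_le_VV hA hx ha).trans h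
  refine ⟨?_, ⟨h.mem0, h0⟩, ⟨h.mem1, h1⟩, ?_, ?_⟩
  · obtain ⟨C, hC1, hC2, rfl⟩ := h.repr
    refine ⟨C ∩ {x | ∀ a ∈ A, ev a x ≤ c}, hC1.inter ?_, hC2.inter ?_, inter_assoc _ _ _⟩
    · have : {x | ∀ a ∈ A, ev a x ≤ c} = ⋂ a ∈ A, {x | ev a x ≤ c} := by ext x; simp
      rw [this]
      refine isClosed_biInter fun a _ => isClosed_le ?_ continuous_const
      unfold ev
      fun_prop
    · intro x hx y hy s t hs ht hst a ha
      rw [ev_comb a x y hst]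
      have h2 := hx a ha
      have h3 := hy a ha
      calc s * ev a x + t * ev a y ≤ s * c + t * c := by gcongr
        _ = c := by rw [← add_mul, hst, one_mul]
  · intro x a b hab hx hxP hxa
    have hG : ∀ t ∈ Icc a b, x t ∈ G := fun t ht =>
      h.inv x a t ht.1 (hx.mono le_rfl ht.2) (fun s hs => hxP s ⟨hs.1, hs.2.trans ht.2⟩) hxa.1
    refine ⟨hG b (right_mem_Icc.2 hab), (hiff _ (hP (hxP b (right_mem_Icc.2 hab)))).2 ?_⟩
    by_contra hcon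
    have h2 := barrier hA hab hx (fun t ht => hP (hxP t ht)) le_rfl (c := c) (fun t ht => by
      obtain ⟨α, hα, hα'⟩ := hgood _ (hG t (Ioc_subset_Icc_self ht))
      refine ⟨α, hα, fun hc => ?_⟩
      have := hα' hc
      have := hr' _ (hP (hxP t (Ioc_subset_Icc_self ht)))
      linarith) (by linarith)
    have h3 := (hiff _ (hP (hxP a (left_mem_Icc.2 hab)))).1 hxa.2
    linarith
  · intro x K hK hKP hx hxK
    obtain ⟨T₀, hT₀, hxT₀⟩ := h.attr x K hK hKP hx hxK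
    obtain ⟨y, hy, hmin⟩ := hK.exists_isMinOn ⟨x 0, hxK 0 le_rfl⟩ hr.continuousOn
    have hκ : 0 < rate y := hr' y (hP (hKP hy))
    set T := T₀ + (|VV A (x T₀) - c| + 1) / (rate y / 2) with hT
    have hTT : T₀ ≤ T := by
      rw [hT]
      have : 0 ≤ (|VV A (x T₀) - c| + 1) / (rate y / 2) := by positivity
      linarith
    have hG : ∀ t ∈ Icc T₀ T, x t ∈ G := fun t ht =>
      h.inv x T₀ t ht.1 ((hx t).mono hT₀ le_rfl) (fun s hs => hKP (hxK s (hT₀.trans hs.1))) hxT₀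
    refine ⟨T, hT₀.trans hTT, hG T (right_mem_Icc.2 hTT),
      (hiff _ (hP (hKP (hxK T (hT₀.trans hTT))))).2 ?_⟩
    by_contra hcon
    have h2 := barrier hA hTT ((hx T).mono hT₀ le_rfl)
      (fun t ht => hP (hKP (hxK t (hT₀.trans ht.1)))) (κ := rate y / 2) (by positivity) (c := c)
      (fun t ht => by
        obtain ⟨α, hα, hα'⟩ := hgood _ (hG t (Ioc_subset_Icc_self ht))
        refine ⟨α, hα, fun hc => ?_⟩
        have := hα' hc
        have h3 : rate y ≤ rate (x t) := hmin (hxK t (hT₀.trans ht.1.le))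
        linarith) (by linarith)
    have h3 : rate y / 2 * (T - T₀) = |VV A (x T₀) - c| + 1 := by
      rw [hT]; field_simp; ring
    have h4 := le_abs_self (VV A (x T₀) - c)
    linarith

end Crest.Agent.R92
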