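import Mathlib

/-! Hierarchically rounded slopes: the combinatorial core of the permanence proof. -/

set_option autoImplicit false

namespace Crest.Agent.R92

open Finset

/-- Numerical parameters of the construction in dimension `m`. -/
structure Par (m : ℕ) where
  Q : ℕ → ℕ
  κ : ℕ → ℝ
  Λ : ℝ
  hQ1 : ∀ j, 1 ≤ Q j
  hQ : ∀ j, j < m → 2 * Q (j + 1) ^ 2 ≤ Q j
  hκ1 : ∀ j, 2 * (Q j : ℝ) ≤ κ j
  hκ : ∀ j, j < m → 2 * (Q (j + 1) : ℝ) * κ (j + 1) ^ 2 ≤ κ j
  hΛ : ∀ j, j ≤ m → 8 * (m : ℝ) * κ j ≤ Λ
  hΛ1 : 1 ≤ Λ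

variable {m : ℕ} (P : Par m)

noncomputable def lam (b : Fin m → Bool) (j : ℕ) : ℝ :=
  P.Λ * ∏ i ∈ univ.filter (fun i : Fin m => i.val < j ∧ b i = true), (2 * P.κ (i.val + 1))

noncomputable def nu (b : Fin m → Bool) (j : Fin m) : ℝ := P.κ (j.val + 1) * lam P b j.val

def HH (j : ℕ) : Set (Fin m → ℤ) :=
  {e | (∀ i, |e i| ≤ (P.Q j : ℤ)) ∧ ∀ i : Fin m, j ≤ i.val → e i = 0}

def dot (e : Fin m → ℤ) (v : Fin m → ℝ) : ℝ := ∑ i, (e i : ℝ) * v i

noncomputable def theta (e : Fin m → ℤ) (j : Fin m) (v : Fin m → ℝ) : ℝ :=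
  -(∑ i ∈ univ.filter (fun i : Fin m => i < j), (e i : ℝ) * v i) / (e j : ℝ)

def TT (j : Fin m) (v : Fin m → ℝ) : Set ℝ :=
  {t | ∃ e ∈ HH P (j.val + 1), 0 < e j ∧ t = theta e j v}

def NN (b : Fin m → Bool) : Set (Fin m → ℝ) :=
  {v | Antitone v ∧ ∀ j, (b j = true → v j ∈ TT P j v) ∧
    (b j = false → ∀ t ∈ TT P j v, nu P b j ≤ |v j - t|)}

noncomputable def YY (b : Fin m → Bool) (v : Fin m → ℝ) (j : Fin m) : ℝ :=
  v j - if b j = true then nu P b j else 0

noncomputable def psi (b : Fin m → Bool) (v : Fin m → ℝ) : ℝ := ∑ j, Real.exp (YY P b v j)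

noncomputable def FF (x : Fin m → ℝ) (b : Fin m → Bool) (v : Fin m → ℝ) : ℝ :=
  ∑ j, v j * x j - psi P b v

lemma kappa_ge (j : ℕ) : 2 ≤ P.κ j := by
  have h1 := P.hκ1 j
  have h2 : (1 : ℝ) ≤ P.Q j := by exact_mod_cast P.hQ1 j
  linarith

lemma lam_succ (b : Fin m → Bool) (j : Fin m) :
    lam P b (j.val + 1) = lam P b j.val * (if b j = true then 2 * P.κ (j.val + 1) else 1) := by
  unfold lam
  by_cases hb : b j = true
  · have : univ.filter (fun i : Fin m => i.val < j.val + 1 ∧ b i = true) =
        insert j (univ.filter (fun i : Fin m => i.val < j.val ∧ b i = true)) := by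
      ext i
      simp only [mem_filter, mem_univ, true_and, mem_insert]
      constructor
      · rintro ⟨h1, h2⟩
        by_cases hij : i = j
        · exact Or.inl hij
        · refine Or.inr ⟨?_, h2⟩
          have : i.val ≠ j.val := fun h => hij (Fin.ext h)
          omega
      · rintro (rfl | ⟨h1, h2⟩)
        · exact ⟨by omega, hb⟩
        · exact ⟨by omega, h2⟩
    rw [this, prod_insert (by simp), if_pos hb]
    ring
  · have : univ.filter (fun i : Fin m => i.val < j.val + 1 ∧ b i = true) =
        univ.filter (fun i : Fin m => i.val < j.val ∧ b i = true) := by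
      ext i
      simp only [mem_filter, mem_univ, true_and]
      constructor
      · rintro ⟨h1, h2⟩
        refine ⟨?_, h2⟩
        have : i.val ≠ j.val := fun h => hb (by rw [← Fin.ext h]; exact h2)
        omega
      · rintro ⟨h1, h2⟩
        exact ⟨by omega, h2⟩
    rw [this, if_neg hb, mul_one]

lemma lam_mono (b : Fin m → Bool) {i j : ℕ} (h : i ≤ j) : lam P b i ≤ lam P b j := by
  unfold lam
  apply mul_le_mul_of_nonneg_left _ (by linarith [P.hΛ1])
  apply prod_le_prod_of_subset_of_one_le
  · intro k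
    simp only [mem_filter, mem_univ, true_and]
    rintro ⟨h1, h2⟩
    exact ⟨by omega, h2⟩
  · intro k _
    linarith [kappa_ge P (k.val + 1)]
  · intro k _ _
    linarith [kappa_ge P (k.val + 1)]

lemma lam_ge (b : Fin m → Bool) (j : ℕ) : P.Λ ≤ lam P b j := by
  have h := lam_mono P b (Nat.zero_le j)
  have : lam P b 0 = P.Λ := by simp [lam]
  linarith

lemma lam_pos (b : Fin m → Bool) (j : ℕ) : 0 < lam P b j := by
  linarith [lam_ge P b j, P.hΛ1]

lemma lam_le_nu (b : Fin m → Bool) (j : Fin m) : 2 * lam P b j.val ≤ nu P b j := by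
  unfold nu
  have := kappa_ge P (j.val + 1)
  have := lam_pos P b j.val
  nlinarith

lemma lam_congr {b b' : Fin m → Bool} {j : ℕ} (h : ∀ i : Fin m, i.val < j → b i = b' i) :
    lam P b j = lam P b' j := by
  unfold lam
  congr 2
  ext i
  simp only [mem_filter, mem_univ, true_and]
  constructor
  · rintro ⟨h1, h2⟩
    exact ⟨h1, by rw [← h i h1]; exact h2⟩
  · rintro ⟨h1, h2⟩
    exact ⟨h1, by rw [h i h1]; exact h2⟩

lemma nu_congr {b b' : Fin m → Bool} {j : Fin m} (h : ∀ i : Fin m, i < j → b i = b' i) :
    nu P b j = nu P b' j := by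
  unfold nu
  rw [lam_congr P (j := j.val) h]

lemma theta_congr (e : Fin m → ℤ) {j : Fin m} {v v' : Fin m → ℝ}
    (h : ∀ i : Fin m, i < j → v i = v' i) : theta e j v = theta e j v' := by
  unfold theta
  congr 2
  apply sum_congr rfl
  intro i hi
  rw [h i (by simpa using hi)]

lemma TT_congr {j : Fin m} {v v' : Fin m → ℝ}
    (h : ∀ i : Fin m, i < j → v i = v' i) : TT P j v = TT P j v' := by
  unfold TT
  ext t
  simp only [Set.mem_ofPred_eq, theta_congr _ h]

lemma dot_eq {j : Fin m} {e : Fin m → ℤ} (he : e ∈ HH P (j.val + 1)) (hj : e j ≠ 0)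
    (v : Fin m → ℝ) : dot e v = (e j : ℝ) * (v j - theta e j v) := by
  unfold dot theta
  have hj' : (e j : ℝ) ≠ 0 := by exact_mod_cast hj
  have : ∑ i, (e i : ℝ) * v i =
      ∑ i ∈ insert j (univ.filter (fun i : Fin m => i < j)), (e i : ℝ) * v i := by
    symm
    apply sum_subset (subset_univ _)
    intro i _ hi
    simp only [mem_insert, mem_filter, mem_univ, true_and, not_or, not_lt] at hi
    have : j.val + 1 ≤ i.val := by
      have h1 : i.val ≠ j.val := fun h => hi.1 (Fin.ext h)
      have h2 : j.val ≤ i.val := hi.2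
      omega
    rw [he.2 i this]
    simp
  rw [this, sum_insert (by simp)]
  field_simp
  ring

lemma zero_mem_TT (j : Fin m) (v : Fin m → ℝ) : (0 : ℝ) ∈ TT P j v := by
  refine ⟨Pi.single j 1, ⟨?_, ?_⟩, by simp, ?_⟩
  · intro i
    have := P.hQ1 (j.val + 1)
    by_cases h : i = j
    · subst h; simp; exact_mod_cast this
    · simp [h]
  · intro i hi
    have : i ≠ j := by rintro rfl; omega
    simp [this]
  · unfold theta
    rw [sum_eq_zero]
    · simp
    · intro i hi
      have : i ≠ j := by rintro rfl; simp at hi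
      simp [this]

lemma prev_mem_TT {i j : Fin m} (hij : i < j) (v : Fin m → ℝ) : v i ∈ TT P j v := by
  have hne : i ≠ j := ne_of_lt hij
  refine ⟨Pi.single j 1 - Pi.single i 1, ⟨?_, ?_⟩, by simp [hne.symm], ?_⟩
  · intro k
    have := P.hQ1 (j.val + 1)
    have h1 : (1 : ℤ) ≤ P.Q (j.val + 1) := by exact_mod_cast this
    by_cases h : k = j
    · subst h; simp [hne.symm]; exact_mod_cast this
    · by_cases h' : k = i
      · subst h'; simp [h]; exact_mod_cast this
      · simp [h, h']
  · intro k hk
    have h1 : k ≠ j := by rintro rfl; omega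
    have h2 : k ≠ i := by
      rintro rfl
      have : k.val < j.val := hij
      omega
    simp [h1, h2]
  · unfold theta
    rw [sum_eq_single i]
    · simp [hne, hne.symm]
    · intro k hk hki
      have : k ≠ j := by rintro rfl; simp at hk
      simp [this, hki]
    · intro h
      simp [hij] at h

lemma neg_mem_HH {j : ℕ} {e : Fin m → ℤ} (he : e ∈ HH P j) : -e ∈ HH P j :=
  ⟨fun i => by simpa using he.1 i, fun i hi => by simp [he.2 i hi]⟩

lemma dot_neg (e : Fin m → ℤ) (v : Fin m → ℝ) : dot (-e) v = -dot e v := by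
  simp [dot]

/-- The margin invariant. -/
lemma margin {b : Fin m → Bool} {v : Fin m → ℝ} (hv : v ∈ NN P b) :
    ∀ j : ℕ, j ≤ m → ∀ e ∈ HH P j, 0 < dot e v → P.κ j * lam P b j ≤ dot e v := by
  intro j
  induction j with
  | zero =>
    intro _ e he hpos
    have : dot e v = 0 := by
      unfold dot
      apply sum_eq_zero
      intro i _
      rw [he.2 i (Nat.zero_le _)]
      simp
    linarith
  | succ j ih =>
    intro hj e he hpos
    have hjm : j < m := by omega
    set J : Fin m := ⟨j, hjm⟩ with hJ
    have hQ1 : (1 : ℝ) ≤ P.Q (j + 1) := by exact_mod_cast P.hQ1 (j + 1)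
    have hκ := P.hκ j hjm
    have hκ2 := kappa_ge P (j + 1)
    have hl := lam_pos P b j
    have hsucc := lam_succ P b J
    simp only [hJ] at hsucc
    have hQle : (P.Q (j + 1) : ℤ) ≤ P.Q j := by
      have h1 := P.hQ j hjm
      have h2 := P.hQ1 (j + 1)
      have : P.Q (j + 1) ≤ P.Q j := by nlinarith
      exact_mod_cast this
    by_cases hb : b J = true
    · -- on a wall: eliminate
      obtain ⟨g, hg, hgpos, hgt⟩ := (hv.2 J).1 hb
      have hgdot : dot g v = 0 := by
        rw [dot_eq P hg (ne_of_gt hgpos), ← hgt]; simp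
      have hf : (fun i => g J * e i - e J * g i) ∈ HH P j := by
        constructor
        · intro i
          have h1 := hg.1 i
          have h2 := hg.1 J
          have h3 := he.1 i
          have h4 := he.1 J
          have h5 : ((2 * P.Q (j + 1) ^ 2 : ℕ) : ℤ) ≤ P.Q j := by exact_mod_cast P.hQ j hjm
          push_cast at h5
          simp only [hJ] at h1 h2
          calc |g J * e i - e J * g i| ≤ |g J * e i| + |e J * g i| := abs_sub _ _
            _ = |g J| * |e i| + |e J| * |g i| := by rw [abs_mul, abs_mul]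
            _ ≤ (P.Q (j + 1) : ℤ) * P.Q (j + 1) + (P.Q (j + 1) : ℤ) * P.Q (j + 1) := by
                gcongr
            _ ≤ P.Q j := by nlinarith
        · intro i hi
          by_cases hij : i = J
          · subst hij; ring
          · have : j + 1 ≤ i.val := by
              have : i.val ≠ j := fun h => hij (Fin.ext h)
              omega
            show g J * e i - e J * g i = 0
            rw [he.2 i this, hg.2 i this]; ring
      have hdot : dot (fun i => g J * e i - e J * g i) v = (g J : ℝ) * dot e v := by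
        have : dot (fun i => g J * e i - e J * g i) v = (g J : ℝ) * dot e v - e J * dot g v := by
          unfold dot
          rw [mul_sum, mul_sum, ← sum_sub_distrib]
          apply sum_congr rfl
          intro i _
          push_cast
          ring
        rw [this, hgdot]; ring
      have hgpos' : (0 : ℝ) < g J := by exact_mod_cast hgpos
      have hgle : (g J : ℝ) ≤ P.Q (j + 1) := by
        have := (le_abs_self _).trans (hg.1 J)
        exact_mod_cast this
      have h1 := ih hjm.le _ hf (by rw [hdot]; positivity)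
      rw [hdot] at h1
      rw [hsucc, if_pos hb]
      have h2 : (g J : ℝ) * dot e v ≤ P.Q (j + 1) * dot e v := by gcongr
      have h3 : 2 * (P.Q (j + 1) : ℝ) * P.κ (j + 1) ^ 2 * lam P b j ≤ P.κ j * lam P b j := by
        gcongr
      have h4 : (P.Q (j + 1) : ℝ) * (P.κ (j + 1) * (lam P b j * (2 * P.κ (j + 1)))) ≤
          P.Q (j + 1) * dot e v := by nlinarith
      exact le_of_mul_le_mul_left h4 (by linarith)
    · have hb' : b J = false := by simpa using hb
      rw [hsucc, if_neg hb, mul_one]
      have key : ∀ e ∈ HH P (j + 1), 0 < e J → P.κ (j + 1) * lam P b j ≤ |dot e v| := by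
        intro e he hJpos
        have h1 := (hv.2 J).2 hb' _ ⟨e, he, hJpos, rfl⟩
        rw [dot_eq P (j := J) he (ne_of_gt hJpos), abs_mul]
        have h2 : (1 : ℝ) ≤ |(e J : ℝ)| := by
          rw [abs_of_pos (by exact_mod_cast hJpos)]
          exact_mod_cast hJpos
        have h3 : nu P b J = P.κ (j + 1) * lam P b j := rfl
        have h4 := abs_nonneg (v J - theta e J v)
        nlinarith
      rcases lt_trichotomy (e J) 0 with h | h | h
      · have := key (-e) (neg_mem_HH P he) (by simpa using h)
        rwa [dot_neg, abs_neg, abs_of_pos hpos] at this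
      · have he' : e ∈ HH P j := by
          constructor
          · intro i; exact (he.1 i).trans hQle
          · intro i hi
            by_cases hij : i = J
            · subst hij; exact h
            · apply he.2
              have : i.val ≠ j := fun h => hij (Fin.ext h)
              omega
        have h1 := ih hjm.le _ he' hpos
        have h2 : P.κ (j + 1) ≤ P.κ j := by nlinarith
        nlinarith
      · have := key e he h
        rwa [abs_of_pos hpos] at this

/-- Around a wall, the other walls are far. -/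
lemma gap {b : Fin m → Bool} {v : Fin m → ℝ} (hv : v ∈ NN P b) {j : Fin m} (hb : b j = true)
    {t : ℝ} (ht : t ∈ TT P j v) (hne : t ≠ v j) : 3 * nu P b j ≤ |v j - t| := by
  obtain ⟨e, he, hpos, rfl⟩ := ht
  have hd := dot_eq P he (ne_of_gt hpos) v
  have hpos' : (0 : ℝ) < e j := by exact_mod_cast hpos
  have hle : (e j : ℝ) ≤ P.Q (j.val + 1) := by
    have := (le_abs_self _).trans (he.1 j)
    exact_mod_cast this
  have hsucc := lam_succ P b j
  rw [if_pos hb] at hsucc
  have habs : P.κ (j.val + 1) * lam P b (j.val + 1) ≤ |dot e v| := by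
    rcases lt_trichotomy (dot e v) 0 with h | h | h
    · have := margin P hv (j.val + 1) j.isLt (-e) (neg_mem_HH P he) (by rw [dot_neg]; linarith)
      rw [dot_neg] at this
      rwa [abs_of_neg h]
    · exfalso
      rw [h] at hd
      rcases mul_eq_zero.1 hd.symm with h1 | h1
      · linarith
      · exact hne (by linarith)
    · rw [abs_of_pos h]
      exact margin P hv (j.val + 1) j.isLt e he h
  rw [hd, abs_mul, abs_of_pos hpos', hsucc] at habs
  have h1 := P.hκ1 (j.val + 1)
  have h2 := abs_nonneg (v j - theta e j v)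
  have hnu : 0 < nu P b j := by linarith [lam_le_nu P b j, lam_pos P b j.val]
  have h3 : P.κ (j.val + 1) * (lam P b j.val * (2 * P.κ (j.val + 1))) =
      2 * P.κ (j.val + 1) * nu P b j := by unfold nu; ring
  rw [h3] at habs
  have hQ1 : (1 : ℝ) ≤ P.Q (j.val + 1) := by exact_mod_cast P.hQ1 (j.val + 1)
  have h4 : (P.Q (j.val + 1) : ℝ) * (4 * nu P b j) ≤ P.Q (j.val + 1) * |v j - theta e j v| := by
    nlinarith
  have := le_of_mul_le_mul_left h4 (by linarith)
  linarith

lemma YY_anti {b : Fin m → Bool} {v : Fin m → ℝ} (hv : v ∈ NN P b) {i j : Fin m} (hij : i ≤ j) :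
    YY P b v j ≤ YY P b v i := by
  rcases eq_or_lt_of_le hij with rfl | hij
  · exact le_rfl
  have h1 : YY P b v j ≤ v i - nu P b j := by
    unfold YY
    have h2 : v j ≤ v i := hv.1 hij.le
    by_cases hb : b j = true
    · rw [if_pos hb]; linarith
    · rw [if_neg hb]
      have := (hv.2 j).2 (by simpa using hb) _ (prev_mem_TT P hij v)
      rw [abs_of_nonpos (by linarith)] at this
      linarith
  have h3 := lam_le_nu P b j
  have h4 := lam_pos P b j.val
  have h5 : lam P b (i.val + 1) ≤ lam P b j.val := lam_mono P b hij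
  have h6 := lam_succ P b i
  unfold YY at *
  by_cases hb : b i = true
  · rw [if_pos hb] at h6 ⊢
    have : lam P b (i.val + 1) = 2 * nu P b i := by rw [h6]; unfold nu; ring
    have h7 : 0 < nu P b i := by linarith [lam_le_nu P b i, lam_pos P b i.val]
    linarith
  · rw [if_neg hb]
    linarith

end Crest.Agent.R92
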