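import Crest.Agent.R92.Core1

/-! Optimal slopes are close to the logarithm. -/

set_option autoImplicit false

namespace Crest.Agent.R92

open Finset

variable {m : ℕ} (P : Par m)

def compv (v : Fin m → ℝ) (j : Fin m) (u : ℝ) : Fin m → ℝ := fun i => if i < j then v i else u

def compb (b : Fin m → Bool) (j : Fin m) (c : Bool) : Fin m → Bool :=
  fun i => if i < j then b i else if i = j then c else true

lemma comp_mem {b : Fin m → Bool} {v : Fin m → ℝ} (hv : v ∈ NN P b) (j : Fin m) (u : ℝ)
    (c : Bool) (hcap : ∀ i, i < j → u ≤ v i) (hon : c = true → u ∈ TT P j v)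
    (hoff : c = false → ∀ t ∈ TT P j v, nu P b j ≤ |u - t|) :
    compv v j u ∈ NN P (compb b j c) := by
  constructor
  · intro i k hik
    unfold compv
    by_cases hk : k < j
    · rw [if_pos hk, if_pos (lt_of_le_of_lt hik hk)]
      exact hv.1 hik
    · rw [if_neg hk]
      by_cases hi : i < j
      · rw [if_pos hi]; exact hcap i hi
      · rw [if_neg hi]
  · intro i
    have hT : i ≤ j → TT P i (compv v j u) = TT P i v := fun hij =>
      TT_congr P (fun k hk => by unfold compv; rw [if_pos (lt_of_lt_of_le hk hij)])
    have hN : i ≤ j → nu P (compb b j c) i = nu P b i := fun hij =>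
      nu_congr P (fun k hk => by unfold compb; rw [if_pos (lt_of_lt_of_le hk hij)])
    rcases lt_trichotomy i j with h | h | h
    · rw [hT h.le, hN h.le]
      have h1 : compb b j c i = b i := by unfold compb; rw [if_pos h]
      have h2 : compv v j u i = v i := by unfold compv; rw [if_pos h]
      rw [h1, h2]
      exact hv.2 i
    · subst h
      rw [hT le_rfl, hN le_rfl]
      have h1 : compb b i c i = c := by unfold compb; simp
      have h2 : compv v i u i = u := by unfold compv; simp
      rw [h1, h2]
      exact ⟨hon, hoff⟩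
    · have h1 : compb b j c i = true := by
        unfold compb; rw [if_neg (not_lt.2 h.le), if_neg (ne_of_gt h)]
      rw [h1]
      refine ⟨fun _ => ?_, fun h => by simp at h⟩
      have h2 : compv v j u i = compv v j u j := by
        unfold compv; rw [if_neg (not_lt.2 h.le), if_neg (lt_irrefl _)]
      rw [h2]
      exact prev_mem_TT P h _

lemma YY_comp_lt (b : Fin m → Bool) (v : Fin m → ℝ) {i j : Fin m} (h : i < j) (u : ℝ) (c : Bool) :
    YY P (compb b j c) (compv v j u) i = YY P b v i := by
  have hN : nu P (compb b j c) i = nu P b i :=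
    nu_congr P (fun k hk => by unfold compb; rw [if_pos (lt_trans hk h)])
  have h1 : compb b j c i = b i := by unfold compb; rw [if_pos h]
  have h2 : compv v j u i = v i := by unfold compv; rw [if_pos h]
  unfold YY
  rw [hN, h1, h2]

lemma YY_comp_self (b : Fin m → Bool) (v : Fin m → ℝ) (j : Fin m) (u : ℝ) (c : Bool) :
    YY P (compb b j c) (compv v j u) j = u - if c = true then nu P b j else 0 := by
  have hN : nu P (compb b j c) j = nu P b j :=
    nu_congr P (fun k hk => by unfold compb; rw [if_pos hk])
  have h1 : compb b j c j = c := by unfold compb; simp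
  have h2 : compv v j u j = u := by unfold compv; simp
  unfold YY
  rw [hN, h1, h2]

lemma FF_diff (x : Fin m → ℝ) (b b' : Fin m → Bool) (v v' : Fin m → ℝ) :
    FF P x b v - FF P x b' v' = ∑ i, ((v i - v' i) * x i - Real.exp (YY P b v i) +
      Real.exp (YY P b' v' i)) := by
  unfold FF psi
  simp only [sum_add_distrib, sum_sub_distrib, sub_mul]
  ring

lemma move_up {x : Fin m → ℝ} (hx : ∀ i, 0 < x i) {b : Fin m → Bool} {v : Fin m → ℝ}
    (hv : v ∈ NN P b) {j : Fin m} {u : ℝ} {c : Bool} (hmem : compv v j u ∈ NN P (compb b j c))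
    (hle : FF P x (compb b j c) (compv v j u) ≤ FF P x b v) (hu : v j + 1 ≤ u) :
    x j ≤ m * Real.exp (u - if c = true then nu P b j else 0) := by
  rw [← YY_comp_self P b v j u c]
  set E := Real.exp (YY P (compb b j c) (compv v j u) j) with hE
  have hEpos : 0 < E := Real.exp_pos _
  have h1 : 0 ≤ ∑ i, ((v i - compv v j u i) * x i - Real.exp (YY P b v i) +
      Real.exp (YY P (compb b j c) (compv v j u) i)) := by
    rw [← FF_diff]; linarith
  have h2 : ∑ i, ((v i - compv v j u i) * x i - Real.exp (YY P b v i) +
      Real.exp (YY P (compb b j c) (compv v j u) i)) ≤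
      ∑ i : Fin m, (E - if i = j then x j else 0) := by
    apply sum_le_sum
    intro i _
    rcases lt_trichotomy i j with h | h | h
    · rw [YY_comp_lt P b v h, if_neg (ne_of_lt h)]
      have : compv v j u i = v i := by unfold compv; rw [if_pos h]
      rw [this]
      linarith
    · subst h
      have : compv v i u i = u := by unfold compv; simp
      rw [this, if_pos rfl]
      have h3 := Real.exp_pos (YY P b v i)
      have h4 := hx i
      nlinarith
    · have : compv v j u i = u := by unfold compv; rw [if_neg (not_lt.2 h.le)]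
      rw [this, if_neg (ne_of_gt h)]
      have h3 := Real.exp_pos (YY P b v i)
      have h4 := hx i
      have h5 : v i ≤ v j := hv.1 h.le
      have h6 : Real.exp (YY P (compb b j c) (compv v j u) i) ≤ E :=
        Real.exp_le_exp.2 (YY_anti P hmem h.le)
      nlinarith
  rw [sum_sub_distrib] at h2
  simp only [sum_const, card_univ, Fintype.card_fin, nsmul_eq_mul, sum_ite_eq', mem_univ,
    if_true] at h2
  linarith

lemma move_down {x : Fin m → ℝ} (hx : ∀ i, 0 < x i) (hxa : Antitone x) {b : Fin m → Bool}
    {v : Fin m → ℝ}
    (hv : v ∈ NN P b) {j : Fin m} {u : ℝ} {c : Bool} (hmem : compv v j u ∈ NN P (compb b j c))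
    (hle : FF P x (compb b j c) (compv v j u) ≤ FF P x b v) (hu : u ≤ v j) :
    Real.exp (YY P b v j) - m * Real.exp (u - if c = true then nu P b j else 0) ≤
      m * ((v j - u) * x j) := by
  rw [← YY_comp_self P b v j u c]
  set E := Real.exp (YY P (compb b j c) (compv v j u) j) with hE
  have hEpos : 0 < E := Real.exp_pos _
  have h1 : 0 ≤ ∑ i, ((v i - compv v j u i) * x i - Real.exp (YY P b v i) +
      Real.exp (YY P (compb b j c) (compv v j u) i)) := by
    rw [← FF_diff]; linarith
  have h0 : 0 ≤ (v j - u) * x j := mul_nonneg (by linarith) (hx j).le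
  have h2 : ∑ i, ((v i - compv v j u i) * x i - Real.exp (YY P b v i) +
      Real.exp (YY P (compb b j c) (compv v j u) i)) ≤
      ∑ i : Fin m, ((v j - u) * x j + E - if i = j then Real.exp (YY P b v j) else 0) := by
    apply sum_le_sum
    intro i _
    rcases lt_trichotomy i j with h | h | h
    · rw [YY_comp_lt P b v h, if_neg (ne_of_lt h)]
      have : compv v j u i = v i := by unfold compv; rw [if_pos h]
      rw [this]
      linarith
    · subst h
      have : compv v i u i = u := by unfold compv; simp
      rw [this, if_pos rfl]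
      linarith
    · have : compv v j u i = u := by unfold compv; rw [if_neg (not_lt.2 h.le)]
      rw [this, if_neg (ne_of_gt h)]
      have h3 := Real.exp_pos (YY P b v i)
      have h4 := hx i
      have h5 : v i ≤ v j := hv.1 h.le
      have h6 : Real.exp (YY P (compb b j c) (compv v j u) i) ≤ E :=
        Real.exp_le_exp.2 (YY_anti P hmem h.le)
      have h7 : x i ≤ x j := hxa h.le
      have h8 : (v i - u) * x i ≤ (v j - u) * x j := by
        calc (v i - u) * x i ≤ (v j - u) * x i := by gcongr
          _ ≤ (v j - u) * x j := by gcongr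
      linarith
  rw [sum_sub_distrib] at h2
  simp only [sum_const, card_univ, Fintype.card_fin, nsmul_eq_mul, sum_ite_eq', mem_univ,
    if_true] at h2
  linarith

lemma exp_big {l a : ℝ} {m : ℕ} (hm : 1 ≤ m) (ha : 2 ≤ a) (hl : 8 * (m : ℝ) * a ≤ l) :
    4 * m * (a * l) ≤ Real.exp l := by
  have hm' : (1 : ℝ) ≤ m := by exact_mod_cast hm
  have hl0 : 0 ≤ l := by nlinarith
  have := Real.quadratic_le_exp_of_nonneg hl0
  nlinarith

lemma log_le_of {x y l : ℝ} {m : ℕ} (hx : 0 < x) (hm : 1 ≤ m) (hl : 2 * (m : ℝ) ≤ l)
    (h : x ≤ m * Real.exp (y + 1)) : Real.log x ≤ y + l := by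
  have hm' : (1 : ℝ) ≤ m := by exact_mod_cast hm
  rw [Real.log_le_iff_le_exp hx]
  have h1 : (m : ℝ) ≤ Real.exp (l - 1) := by
    have := Real.add_one_le_exp (l - 1)
    linarith
  calc x ≤ m * Real.exp (y + 1) := h
    _ ≤ Real.exp (l - 1) * Real.exp (y + 1) := by gcongr
    _ = Real.exp (y + l) := by rw [← Real.exp_add]; ring_nf

lemma le_log_of {x y y' l n d : ℝ} {m : ℕ} (hx : 0 < x) (hm : 1 ≤ m) (hl : 2 * (m : ℝ) ≤ l)
    (hn : 4 * m * n ≤ Real.exp l) (hy : y' ≤ y - l) (hd : d ≤ 2 * n)
    (h : Real.exp y - m * Real.exp y' ≤ m * (d * x)) : y - l ≤ Real.log x := by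
  have hm' : (1 : ℝ) ≤ m := by exact_mod_cast hm
  rw [Real.le_log_iff_exp_le hx]
  have h1 : 2 * (m : ℝ) ≤ Real.exp l := by
    have := Real.add_one_le_exp l
    linarith
  have h2 : Real.exp y' ≤ Real.exp (y - l) := Real.exp_le_exp.2 hy
  have h3 : Real.exp y = Real.exp (y - l) * Real.exp l := by rw [← Real.exp_add]; ring_nf
  have h4 := Real.exp_pos (y - l)
  have h5 := Real.exp_pos l
  have h6 : m * Real.exp y' ≤ Real.exp (y - l) * Real.exp l / 2 := by nlinarith
  have h7 : m * (d * x) ≤ Real.exp l / 2 * x := by
    have : m * d ≤ Real.exp l / 2 := by nlinarith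
    nlinarith
  have h8 : Real.exp (y - l) * (Real.exp l / 2) ≤ x * (Real.exp l / 2) := by nlinarith
  exact le_of_mul_le_mul_right h8 (by linarith)

/-- An optimal slope is close to the logarithm of the point. -/
lemma close (neg : Prop) {x : Fin m → ℝ} (hx : ∀ i, 0 < x i) (hxa : Antitone x)
    {b : Fin m → Bool} {v : Fin m → ℝ} (hv : v ∈ NN P b) (hneg : neg → ∀ i, v i < 0)
    (hopt : ∀ b' v', v' ∈ NN P b' → (neg → ∀ i, v' i ≤ 0) → FF P x b' v' ≤ FF P x b v) :
    ∀ j : Fin m, |Real.log (x j) - v j| ≤ lam P b (j.val + 1) := by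
  intro j
  induction j using WellFoundedLT.induction with
  | ind j ih =>
  have hm : 1 ≤ m := by have := j.isLt; omega
  have hm' : (1 : ℝ) ≤ m := by exact_mod_cast hm
  set l := lam P b j.val with hl
  set ν := nu P b j with hν
  have hκ := kappa_ge P (j.val + 1)
  have hl1 : 8 * (m : ℝ) * P.κ (j.val + 1) ≤ l := (P.hΛ _ j.isLt).trans (lam_ge P b _)
  have hl2 : 2 * (m : ℝ) ≤ l := by nlinarith
  have hexp : 4 * m * ν ≤ Real.exp l := exp_big hm hκ hl1
  have hlν : 2 * l ≤ ν := lam_le_nu P b j
  have hsucc := lam_succ P b j
  -- admissible competitors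
  have hcomp : ∀ (u : ℝ) (c : Bool), (∀ i, i < j → u ≤ v i) → (neg → u ≤ 0) →
      (c = true → u ∈ TT P j v) → (c = false → ∀ t ∈ TT P j v, ν ≤ |u - t|) →
      compv v j u ∈ NN P (compb b j c) ∧ FF P x (compb b j c) (compv v j u) ≤ FF P x b v := by
    intro u c h1 h2 h3 h4
    have hmem := comp_mem P hv j u c h1 h3 h4
    refine ⟨hmem, hopt _ _ hmem ?_⟩
    intro hn i
    unfold compv
    split_ifs
    · exact (hneg hn i).le
    · exact h2 hn
  have hdown : ∀ u, u ≤ v j → (∀ i, i < j → u ≤ v i) ∧ (neg → u ≤ 0) := fun u hu =>
    ⟨fun i hi => hu.trans (hv.1 hi.le), fun hn => hu.trans (hneg hn j).le⟩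
  by_cases hb : b j = true
  · -- on a wall
    rw [if_pos hb] at hsucc
    have hlam : lam P b (j.val + 1) = 2 * ν := by rw [hsucc, hν]; unfold nu; ring
    rw [hlam, abs_le]
    have hY : YY P b v j = v j - ν := by unfold YY; rw [if_pos hb]
    have hfar : ∀ t ∈ TT P j v, t = v j ∨ 3 * ν ≤ |v j - t| := fun t ht => by
      by_cases h : t = v j
      · exact Or.inl h
      · exact Or.inr (gap P hv hb ht h)
    constructor
    · obtain ⟨h1, h2⟩ := hcomp (v j - ν - l) false (hdown _ (by linarith)).1
        (hdown _ (by linarith)).2 (by simp) (fun _ t ht => by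
          rcases hfar t ht with h | h
          · rw [h, abs_of_nonpos (by linarith)]; linarith
          · rcases le_abs'.1 h with h | h
            · rw [abs_of_nonpos (by linarith)]; linarith
            · rw [abs_of_nonneg (by linarith)]; linarith)
      have h3 := move_down P hx hxa hv h1 h2 (by linarith)
      rw [hY] at h3
      have := le_log_of (hx j) hm hl2 hexp (by simp) (by linarith) h3
      linarith
    · by_cases htie : ∃ i, i < j ∧ v i = v j
      · obtain ⟨i, hi, hvi⟩ := htie
        have h1 := (abs_le.1 (ih i hi)).2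
        have h2 : lam P b (i.val + 1) ≤ l := lam_mono P b hi
        have h3 : Real.log (x j) ≤ Real.log (x i) := Real.log_le_log (hx j) (hxa hi.le)
        linarith
      · push Not at htie
        have hup : ∀ t ∈ TT P j v, v j < t → v j + ν ≤ t := fun t ht hlt => by
          rcases hfar t ht with h | h
          · linarith
          · rw [abs_of_nonpos (by linarith)] at h; linarith
        obtain ⟨h1, h2⟩ := hcomp (v j + ν) false
          (fun i hi => hup _ (prev_mem_TT P hi v)
            (lt_of_le_of_ne (hv.1 hi.le) (htie i hi).symm))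
          (fun hn => hup _ (zero_mem_TT P j v) (hneg hn j)) (by simp) (fun _ t ht => by
          rcases hfar t ht with h | h
          · rw [h, abs_of_nonneg (by linarith)]; linarith
          · rcases le_abs'.1 h with h | h
            · rw [abs_of_nonpos (by linarith)]; linarith
            · rw [abs_of_nonneg (by linarith)]; linarith)
        have h3 := move_up P hx hv h1 h2 (by linarith)
        have := log_le_of (y := v j + ν - 1) (hx j) hm hl2 (by simpa using h3)
        linarith
  · -- off the walls
    have hb' : b j = false := by simpa using hb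
    rw [if_neg hb, mul_one] at hsucc
    rw [hsucc, abs_le]
    have hY : YY P b v j = v j := by unfold YY; rw [if_neg hb, sub_zero]
    have hfar : ∀ t ∈ TT P j v, ν ≤ |v j - t| := (hv.2 j).2 hb'
    constructor
    · by_cases hok : ∀ t ∈ TT P j v, ν ≤ |v j - l - t|
      · obtain ⟨h1, h2⟩ := hcomp (v j - l) false (hdown _ (by linarith)).1
          (hdown _ (by linarith)).2 (by simp) (fun _ => hok)
        have h3 := move_down P hx hxa hv h1 h2 (by linarith)
        rw [hY] at h3
        have := le_log_of (hx j) hm hl2 hexp (by simp) (by linarith) h3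
        linarith
      · push Not at hok
        obtain ⟨t, ht, hlt⟩ := hok
        rw [abs_lt] at hlt
        have h0 : t ≤ v j - ν := by
          rcases le_abs'.1 (hfar t ht) with h | h
          · linarith
          · linarith
        obtain ⟨h1, h2⟩ := hcomp t true (hdown _ (by linarith)).1
          (hdown _ (by linarith)).2 (fun _ => ht) (by simp)
        have h3 := move_down P hx hxa hv h1 h2 (by linarith)
        rw [hY] at h3
        have := le_log_of (hx j) hm hl2 hexp (by simp only [if_true]; linarith) (by linarith) h3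
        linarith
    · have hup : ∀ t ∈ TT P j v, v j ≤ t → v j + ν ≤ t := fun t ht hlt => by
        have h := hfar t ht
        rw [abs_of_nonpos (by linarith)] at h; linarith
      by_cases hok : ∀ t ∈ TT P j v, ν ≤ |v j + 1 - t|
      · obtain ⟨h1, h2⟩ := hcomp (v j + 1) false
          (fun i hi => by have := hup _ (prev_mem_TT P hi v) (hv.1 hi.le); linarith)
          (fun hn => by have := hup _ (zero_mem_TT P j v) (hneg hn j).le; linarith)
          (by simp) (fun _ => hok)
        have h3 := move_up P hx hv h1 h2 le_rfl
        have := log_le_of (y := v j) (hx j) hm hl2 (by simpa using h3)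
        linarith
      · push Not at hok
        obtain ⟨t, ht, hlt⟩ := hok
        rw [abs_lt] at hlt
        have h0 : v j ≤ t := by
          rcases le_abs'.1 (hfar t ht) with h | h
          · linarith
          · linarith
        -- the smallest relevant threshold
        obtain ⟨t', ht', ht'1, ht'2, ht'3, ht'4⟩ : ∃ t' ∈ TT P j v, v j ≤ t' ∧ t' ≤ t ∧
            (∀ i, i < j → t' ≤ v i) ∧ (neg → t' ≤ 0) := by
          by_cases hj : ∃ i, i < j
          · obtain ⟨i0, hi0, hmin⟩ := exists_min_image (univ.filter (fun i : Fin m => i < j)) v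
              (by obtain ⟨i, hi⟩ := hj; exact ⟨i, by simpa using hi⟩)
            have hi0' : i0 < j := by simpa using hi0
            refine ⟨min t (v i0), ?_, le_min h0 (hv.1 hi0'.le), min_le_left _ _,
              fun i hi => (min_le_right _ _).trans (hmin i (by simpa using hi)),
              fun hn => (min_le_right _ _).trans (hneg hn i0).le⟩
            rcases min_choice t (v i0) with h | h <;> rw [h]
            · exact ht
            · exact prev_mem_TT P hi0' v
          · by_cases hn : neg
            · refine ⟨min t 0, ?_, le_min h0 (hneg hn j).le, min_le_left _ _,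
                fun i hi => absurd ⟨i, hi⟩ hj, fun _ => min_le_right _ _⟩
              rcases min_choice t 0 with h | h <;> rw [h]
              · exact ht
              · exact zero_mem_TT P j v
            · exact ⟨t, ht, h0, le_rfl, fun i hi => absurd ⟨i, hi⟩ hj, fun h => absurd h hn⟩
        obtain ⟨h1, h2⟩ := hcomp t' true ht'3 ht'4 (fun _ => ht') (by simp)
        have h4 := hup t' ht' ht'1
        have h3 := move_up P hx hv h1 h2 (by linarith)
        simp only [if_true] at h3
        have h5 : x j ≤ m * Real.exp (v j + 1) := by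
          refine h3.trans ?_
          gcongr
          linarith
        have := log_le_of (y := v j) (hx j) hm hl2 h5
        linarith

end Crest.Agent.R92
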