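import Crest.Agent.R92.Core2

/-! Existence of optimal slopes and the packaged families of affine functions. -/

set_option autoImplicit false

namespace Crest.Agent.R92

open Finset

def qq (q : ℕ) : ℕ → ℕ
  | 0 => q
  | r + 1 => 2 * (qq q r) ^ 2

def kk (q m : ℕ) : ℕ → ℕ
  | 0 => q * m + 2 * q + 1
  | r + 1 => 2 * qq q r * (kk q m r) ^ 2

lemma qq_pos {q : ℕ} (hq : 1 ≤ q) (r : ℕ) : 1 ≤ qq q r := by
  induction r with
  | zero => exact hq
  | succ r ih => unfold qq; nlinarith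

lemma kk_ge {q : ℕ} (hq : 1 ≤ q) (m r : ℕ) : 2 * qq q r ≤ kk q m r := by
  induction r with
  | zero => unfold qq kk; omega
  | succ r ih =>
    have := qq_pos hq r
    unfold qq kk
    have h1 : (2 * qq q r) ^ 2 ≤ (kk q m r) ^ 2 := Nat.pow_le_pow_left ih 2
    nlinarith

lemma exists_par (m q : ℕ) (hq : 1 ≤ q) (δ : ℝ) :
    ∃ P : Par m, P.Q m = q ∧ (q : ℝ) * m + 1 ≤ P.κ m ∧ δ ≤ P.Λ := by
  refine ⟨⟨fun j => qq q (m - j), fun j => kk q m (m - j),
    8 * (m : ℝ) * (∑ j ∈ range (m + 1), (kk q m (m - j) : ℝ)) + 1 + |δ|,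
    fun j => qq_pos hq _, ?_, ?_, ?_, ?_, ?_⟩, ?_, ?_, ?_⟩
  · intro j hj
    have : m - j = (m - (j + 1)) + 1 := by omega
    simp only [this, qq, le_refl]
  · intro j
    exact_mod_cast kk_ge hq m (m - j)
  · intro j hj
    have : m - j = (m - (j + 1)) + 1 := by omega
    simp only [this, kk]
    push_cast
    exact le_rfl
  · intro j hj
    have h1 : (kk q m (m - j) : ℝ) ≤ ∑ j ∈ range (m + 1), (kk q m (m - j) : ℝ) :=
      single_le_sum (f := fun j => (kk q m (m - j) : ℝ)) (fun _ _ => by positivity)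
        (mem_range.2 (by omega))
    have h2 : 8 * (m : ℝ) * (kk q m (m - j) : ℝ) ≤
        8 * (m : ℝ) * ∑ j ∈ range (m + 1), (kk q m (m - j) : ℝ) := by gcongr
    have := abs_nonneg δ
    linarith
  · have := abs_nonneg δ
    have h2 : 0 ≤ 8 * (m : ℝ) * ∑ j ∈ range (m + 1), (kk q m (m - j) : ℝ) := by positivity
    linarith
  · simp [qq]
  · simp only [Nat.sub_self, kk]
    push_cast
    have : (0 : ℝ) ≤ q := by positivity
    linarith
  · have := le_abs_self δ
    have h2 : 0 ≤ 8 * (m : ℝ) * ∑ j ∈ range (m + 1), (kk q m (m - j) : ℝ) := by positivity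
    simp only
    linarith

variable {m : ℕ} (P : Par m)

lemma compat {q : ℕ} {δ : ℝ} (hQ : P.Q m = q) (hκ : (q : ℝ) * m + 1 ≤ P.κ m) (hδ : δ ≤ P.Λ)
    {b : Fin m → Bool} {v : Fin m → ℝ} (hv : v ∈ NN P b) {X : Fin m → ℝ}
    (hX : ∀ j, |X j - v j| ≤ lam P b (j.val + 1)) (h : Fin m → ℤ) (hh : ∀ i, |h i| ≤ (q : ℤ))
    (hpos : 0 < dot h v) : 1 ≤ dot h v ∧ δ ≤ dot h X := by
  have hH : h ∈ HH P m := ⟨fun i => by rw [hQ]; exact hh i, fun i hi => by have := i.isLt; omega⟩
  have h1 := margin P hv m le_rfl h hH hpos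
  have h2 := lam_ge P b m
  have h3 := P.hΛ1
  have h4 : (0 : ℝ) ≤ (q : ℝ) * m := by positivity
  have h5 : dot h v - (q : ℝ) * m * lam P b m ≤ dot h X := by
    have : dot h X - dot h v = ∑ i, (h i : ℝ) * (X i - v i) := by
      unfold dot
      rw [← sum_sub_distrib]
      apply sum_congr rfl
      intro i _
      ring
    have h6 : ∑ i : Fin m, -((q : ℝ) * lam P b m) ≤ ∑ i, (h i : ℝ) * (X i - v i) := by
      apply sum_le_sum
      intro i _
      have h7 : |(h i : ℝ)| ≤ q := by exact_mod_cast hh i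
      have h8 : |X i - v i| ≤ lam P b m := (hX i).trans (lam_mono P b i.isLt)
      have h9 : |(h i : ℝ) * (X i - v i)| ≤ q * lam P b m := by
        rw [abs_mul]; gcongr
      exact (abs_le.1 h9).1
    simp only [sum_const, card_univ, Fintype.card_fin, nsmul_eq_mul] at h6
    linarith
  constructor
  · nlinarith
  · nlinarith

lemma HH_finite (j : ℕ) : (HH P j).Finite := by
  apply Set.Finite.subset (Fintype.piFinset (fun _ : Fin m =>
    Finset.Icc (-(P.Q j : ℤ)) (P.Q j))).finite_toSet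
  intro e he
  simp only [Fintype.coe_piFinset, Set.mem_pi, Set.mem_univ, coe_Icc, Set.mem_Icc, true_implies]
  exact fun i => abs_le.1 (he.1 i)

lemma theta_cont (e : Fin m → ℤ) (j : Fin m) : Continuous (theta e j) := by
  unfold theta
  fun_prop

lemma NN_closed (b : Fin m → Bool) : IsClosed (NN P b) := by
  have h1 : IsClosed {v : Fin m → ℝ | Antitone v} := by
    have : {v : Fin m → ℝ | Antitone v} = ⋂ i, ⋂ j, ⋂ (_ : i ≤ j), {v | v j ≤ v i} := by
      ext v; simp [Antitone]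
    rw [this]
    refine isClosed_iInter fun i => isClosed_iInter fun j => isClosed_iInter fun _ => ?_
    exact isClosed_le (continuous_apply j) (continuous_apply i)
  have h2 : ∀ j, IsClosed {v : Fin m → ℝ | v j ∈ TT P j v} := by
    intro j
    have : {v : Fin m → ℝ | v j ∈ TT P j v} =
        ⋃ e ∈ {e ∈ HH P (j.val + 1) | 0 < e j}, {v | v j = theta e j v} := by
      ext v
      simp only [TT, Set.mem_ofPred_eq, Set.mem_iUnion, exists_prop, and_assoc]
    rw [this]
    apply Set.Finite.isClosed_biUnion ((HH_finite P _).subset (fun e he => he.1))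
    intro e _
    exact isClosed_eq (continuous_apply j) (theta_cont e j)
  have h3 : ∀ j, IsClosed {v : Fin m → ℝ | ∀ t ∈ TT P j v, nu P b j ≤ |v j - t|} := by
    intro j
    have : {v : Fin m → ℝ | ∀ t ∈ TT P j v, nu P b j ≤ |v j - t|} =
        ⋂ e ∈ {e ∈ HH P (j.val + 1) | 0 < e j}, {v | nu P b j ≤ |v j - theta e j v|} := by
      ext v
      simp only [TT, Set.mem_ofPred_eq, Set.mem_iInter]
      constructor
      · intro h e he
        exact h _ ⟨e, he.1, he.2, rfl⟩
      · rintro h t ⟨e, he1, he2, rfl⟩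
        exact h e ⟨he1, he2⟩
    rw [this]
    refine isClosed_biInter fun e _ => ?_
    exact isClosed_le continuous_const (((continuous_apply j).sub (theta_cont e j)).abs)
  have : NN P b = {v : Fin m → ℝ | Antitone v} ∩ ⋂ j,
      ((⋂ (_ : b j = true), {v : Fin m → ℝ | v j ∈ TT P j v}) ∩
       (⋂ (_ : b j = false), {v : Fin m → ℝ | ∀ t ∈ TT P j v, nu P b j ≤ |v j - t|})) := by
    ext v
    simp only [NN, Set.mem_ofPred_eq, Set.mem_inter_iff, Set.mem_iInter]
  rw [this]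
  exact h1.inter (isClosed_iInter fun j => (isClosed_iInter fun _ => h2 j).inter
    (isClosed_iInter fun _ => h3 j))

lemma exists_bound : ∃ R : ℝ, 0 < R ∧ ∀ (b : Fin m → Bool) (j : Fin m),
    nu P b j ≤ R ∧ lam P b (j.val + 1) ≤ R := by
  obtain ⟨R, hR⟩ := Finite.exists_le
    (fun p : (Fin m → Bool) × Fin m => max (nu P p.1 p.2) (lam P p.1 (p.2.val + 1)))
  refine ⟨max R 1, by positivity, fun b j => ?_⟩
  have := hR (b, j)
  simp only [max_le_iff] at this
  exact ⟨this.1.trans (le_max_left _ _), this.2.trans (le_max_left _ _)⟩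

lemma nu_pos (b : Fin m → Bool) (j : Fin m) : 0 < nu P b j := by
  linarith [lam_le_nu P b j, lam_pos P b j.val]

lemma term_bound {x v R : ℝ} (hx : 0 < x) :
    v * x - Real.exp (v - R) ≤ 2 * x * |R + Real.log (2 * x)| - x * |v| := by
  have h0 := abs_nonneg (R + Real.log (2 * x))
  rcases le_total v 0 with h | h
  · rw [abs_of_nonpos h]
    have := Real.exp_pos (v - R)
    nlinarith
  · rw [abs_of_nonneg h]
    have h1 : Real.exp (v - R) = 2 * x * Real.exp (v - R - Real.log (2 * x)) := by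
      rw [Real.exp_sub (v - R), Real.exp_log (by linarith)]
      field_simp
    have h2 := Real.add_one_le_exp (v - R - Real.log (2 * x))
    have h3 := le_abs_self (R + Real.log (2 * x))
    rw [h1]
    nlinarith

lemma exists_max_fixed (neg : Prop) {x : Fin m → ℝ} (hx : ∀ i, 0 < x i) (b : Fin m → Bool)
    (hne : ∃ v ∈ NN P b, neg → ∀ i, v i ≤ 0) :
    ∃ v ∈ NN P b, (neg → ∀ i, v i ≤ 0) ∧
      ∀ v' ∈ NN P b, (neg → ∀ i, v' i ≤ 0) → FF P x b v' ≤ FF P x b v := by
  obtain ⟨v₀, hv₀, hv₀'⟩ := hne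
  obtain ⟨R, _, hR⟩ := exists_bound P
  have hclosed : IsClosed (NN P b ∩ {v | neg → ∀ i, v i ≤ 0}) := by
    refine (NN_closed P b).inter ?_
    have : {v : Fin m → ℝ | neg → ∀ i, v i ≤ 0} = ⋂ (_ : neg), ⋂ i, {v | v i ≤ 0} := by
      ext v; simp
    rw [this]
    exact isClosed_iInter fun _ => isClosed_iInter fun i =>
      isClosed_le (continuous_apply i) continuous_const
  have hcont : Continuous (FF P x b) := by
    unfold FF psi YY
    fun_prop
  obtain ⟨c, hc, hcx⟩ : ∃ c : ℝ, 0 < c ∧ ∀ i, c ≤ x i := by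
    rcases isEmpty_or_nonempty (Fin m) with h | h
    · exact ⟨1, one_pos, fun i => h.elim i⟩
    · obtain ⟨i, hi⟩ := Finite.exists_min x
      exact ⟨x i, hx i, hi⟩
  set C := ∑ i, 2 * x i * |R + Real.log (2 * x i)| with hC
  have hbound : ∀ v, FF P x b v ≤ C - c * ‖v‖ := by
    intro v
    have h1 : FF P x b v ≤ C - ∑ i, x i * |v i| := by
      unfold FF psi
      rw [hC, ← sum_sub_distrib, ← sum_sub_distrib]
      apply sum_le_sum
      intro i _
      have h2 : Real.exp (v i - R) ≤ Real.exp (YY P b v i) := by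
        apply Real.exp_le_exp.2
        unfold YY
        have := (hR b i).1
        have := nu_pos P b i
        split_ifs <;> linarith
      have := term_bound (v := v i) (R := R) (hx i)
      linarith
    have h2 : ‖v‖ ≤ ∑ i, |v i| := by
      rw [pi_norm_le_iff_of_nonneg (by positivity)]
      intro i
      exact single_le_sum (f := fun i => |v i|) (fun _ _ => abs_nonneg _) (mem_univ i)
    have h3 : c * ∑ i, |v i| ≤ ∑ i, x i * |v i| := by
      rw [mul_sum]
      apply sum_le_sum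
      intro i _
      gcongr
      exact hcx i
    nlinarith
  obtain ⟨v, hv, hmax⟩ := hcont.continuousOn.exists_isMaxOn' hclosed (x₀ := v₀) ⟨hv₀, hv₀'⟩ (by
    apply Filter.Eventually.filter_mono inf_le_left
    have := (tendsto_norm_cocompact_atTop (E := Fin m → ℝ)).eventually_ge_atTop
      ((C - FF P x b v₀) / c)
    filter_upwards [this] with v hv
    have h1 := hbound v
    rw [div_le_iff₀ hc] at hv
    linarith)
  exact ⟨v, hv.1, hv.2, fun v' h1 h2 => hmax ⟨h1, h2⟩⟩

/-- The constant slope `-n` or `n`. -/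
lemma const_mem (hm : 1 ≤ m) : ∃ b : Fin m → Bool, ∃ n₀ : ℝ, 0 < n₀ ∧
    ∀ s : ℝ, n₀ ≤ |s| → (fun _ => s) ∈ NN P b := by
  set z : Fin m := ⟨0, hm⟩ with hz
  set b : Fin m → Bool := fun i => if i = z then false else true with hb
  refine ⟨b, nu P b z, nu_pos P b z, fun s hs => ⟨fun _ _ _ => le_rfl, fun j => ⟨?_, ?_⟩⟩⟩
  · intro hj
    have hjz : j ≠ z := by rintro rfl; simp [hb] at hj
    have : z < j := by
      have : j.val ≠ 0 := fun h => hjz (Fin.ext h)
      exact Nat.pos_of_ne_zero this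
    exact prev_mem_TT P this (fun _ => s)
  · intro hj
    have hjz : j = z := by
      by_contra h
      simp [hb, h] at hj
    subst hjz
    rintro t ⟨e, _, _, rfl⟩
    have : theta e z (fun _ => s) = 0 := by
      unfold theta
      rw [sum_eq_zero]
      · simp
      · intro i hi
        simp only [mem_filter, mem_univ, true_and] at hi
        exact absurd hi (by simp [hz, Fin.lt_def])
    rw [this, sub_zero]
    exact hs

lemma zero_mem_NN : (fun _ => (0 : ℝ)) ∈ NN P (fun _ => true) :=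
  ⟨fun _ _ _ => le_rfl, fun j => ⟨fun _ => zero_mem_TT P j _, fun h => by simp at h⟩⟩

/-- Evaluation of an affine function. -/
def ev {d : ℕ} (a : (Fin d → ℝ) × ℝ) (x : Fin d → ℝ) : ℝ := ∑ i, a.1 i * x i - a.2

def ext {d : ℕ} (σ : Fin m ↪ Fin d) (v : Fin m → ℝ) : Fin d → ℝ :=
  fun i => ∑ j, if σ j = i then v j else 0

lemma sum_ext {d : ℕ} (σ : Fin m ↪ Fin d) (v : Fin m → ℝ) (y : Fin d → ℝ) :
    ∑ i, ext σ v i * y i = ∑ j, v j * y (σ j) := by
  unfold ext
  simp only [sum_mul]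
  rw [sum_comm]
  apply sum_congr rfl
  intro j _
  rw [sum_eq_single (σ j)]
  · simp
  · intro i _ hi
    simp [hi.symm]
  · simp

def Fam (d : ℕ) (neg : Prop) : Set ((Fin d → ℝ) × ℝ) :=
  {a | ∃ (σ : Fin m ↪ Fin d) (b : Fin m → Bool) (v : Fin m → ℝ), v ∈ NN P b ∧
    (neg → ∀ i, v i ≤ 0) ∧ a = (ext σ v, psi P b v)}

lemma ev_ext {d : ℕ} (σ : Fin m ↪ Fin d) (b : Fin m → Bool) (v : Fin m → ℝ) (x : Fin d → ℝ) :
    ev (ext σ v, psi P b v) x = FF P (fun j => x (σ j)) b v := by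
  unfold ev FF
  rw [sum_ext]

lemma exists_sorted_max {d : ℕ} (hmd : m ≤ d) (neg : Prop) {x : Fin d → ℝ} (hx : ∀ i, 0 < x i) :
    ∃ (σ : Fin m ↪ Fin d) (b : Fin m → Bool) (v : Fin m → ℝ), v ∈ NN P b ∧
      (neg → ∀ i, v i ≤ 0) ∧ Antitone (fun j => x (σ j)) ∧
      ∀ a ∈ Fam P d neg, ev a x ≤ FF P (fun j => x (σ j)) b v := by
  classical
  set I := {p : (Fin m ↪ Fin d) × (Fin m → Bool) // ∃ v ∈ NN P p.2, neg → ∀ i, v i ≤ 0} with hI
  have : Nonempty I := ⟨⟨(Fin.castLEEmb hmd, fun _ => true), fun _ => 0, zero_mem_NN P,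
    fun _ _ => le_rfl⟩⟩
  have hch : ∀ p : I, ∃ v ∈ NN P p.1.2, (neg → ∀ i, v i ≤ 0) ∧
      ∀ v' ∈ NN P p.1.2, (neg → ∀ i, v' i ≤ 0) →
        FF P (fun j => x (p.1.1 j)) p.1.2 v' ≤ FF P (fun j => x (p.1.1 j)) p.1.2 v :=
    fun p => exists_max_fixed P neg (fun j => hx _) p.1.2 p.2
  choose V hV1 hV2 hV3 using hch
  obtain ⟨p, hp⟩ := Finite.exists_max (fun p : I => FF P (fun j => x (p.1.1 j)) p.1.2 (V p))
  set τ := Tuple.sort (fun j => -x (p.1.1 j)) with hτ
  have hanti : Antitone (fun j => x (p.1.1 (τ j))) := by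
    intro i j hij
    have := Tuple.monotone_sort (fun j => -x (p.1.1 j)) hij
    simp only [Function.comp] at this
    linarith
  refine ⟨τ.toEmbedding.trans p.1.1, p.1.2, V p, hV1 p, hV2 p, hanti, ?_⟩
  rintro a ⟨σ, b, v, hv, hv', rfl⟩
  rw [ev_ext]
  have h1 := hV3 ⟨(σ, b), v, hv, hv'⟩ v hv hv'
  have h2 := hp ⟨(σ, b), v, hv, hv'⟩
  have h3 : FF P (fun j => x (p.1.1 j)) p.1.2 (V p) ≤
      FF P (fun j => x (p.1.1 (τ j))) p.1.2 (V p) := by
    unfold FF
    have := ((hV1 p).1.monovary hanti).sum_mul_comp_perm_le_sum_mul (σ := τ.symm)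
    simp only [Equiv.apply_symm_apply] at this
    linarith
  exact h1.trans (h2.trans h3)

end Crest.Agent.R92
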