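import Crest.Agent.R92.Core3

/-! The packaged families of affine functions. -/

set_option autoImplicit false

namespace Crest.Agent.R92

open Finset

def IsMaxAt {d : ℕ} (A : Set ((Fin d → ℝ) × ℝ)) (x : Fin d → ℝ) (a : (Fin d → ℝ) × ℝ) : Prop :=
  a ∈ A ∧ ∀ a' ∈ A, ev a' x ≤ ev a x

def Compat {d : ℕ} (q : ℕ) (δ : ℝ) (w X : Fin d → ℝ) : Prop :=
  ∀ h : Fin d → ℤ, (∀ i, |h i| ≤ (q : ℤ)) → 0 < dot h w → 1 ≤ dot h w ∧ δ ≤ dot h X

lemma dot_ext {m d : ℕ} (σ : Fin m ↪ Fin d) (v : Fin m → ℝ) (h : Fin d → ℤ) :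
    dot h (ext σ v) = dot (fun j => h (σ j)) v := by
  unfold dot
  have := sum_ext σ v (fun i => (h i : ℝ))
  simp only [mul_comm] at this ⊢
  exact this

lemma dot_split {m d : ℕ} (σ : Fin m ↪ Fin d) (X : Fin d → ℝ) (h : Fin d → ℤ) {q : ℕ} {l : ℝ}
    (hl0 : 0 ≤ l) (hh : ∀ i, |h i| ≤ (q : ℤ)) (hl : ∀ i, i ∉ univ.map σ → |X i| ≤ l) :
    dot (fun j => h (σ j)) (fun j => X (σ j)) - d * (q * l) ≤ dot h X := by
  unfold dot
  rw [← sum_add_sum_compl (univ.map σ) (fun i => (h i : ℝ) * X i), sum_map]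
  have h1 : ∑ i ∈ (univ.map σ)ᶜ, -((q : ℝ) * l) ≤ ∑ i ∈ (univ.map σ)ᶜ, (h i : ℝ) * X i := by
    apply sum_le_sum
    intro i hi
    have h7 : |(h i : ℝ)| ≤ q := by exact_mod_cast hh i
    have h8 : |X i| ≤ l := hl i (by simpa using hi)
    have h9 : |(h i : ℝ) * X i| ≤ q * l := by
      rw [abs_mul]; gcongr
    exact (abs_le.1 h9).1
  simp only [sum_const, nsmul_eq_mul] at h1
  have h2 : (((univ.map σ)ᶜ).card : ℝ) ≤ d := by
    have := card_le_univ ((univ.map σ)ᶜ)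
    simp only [Fintype.card_fin] at this
    exact_mod_cast this
  have h3 : (0 : ℝ) ≤ q * l := by positivity
  nlinarith

lemma max_good {m d q : ℕ} {δ : ℝ} (P : Par m) (hQ : P.Q m = q) (hκ : (q : ℝ) * m + 1 ≤ P.κ m)
    (hδ : δ ≤ P.Λ) (neg : Prop) {x : Fin d → ℝ} (hx : ∀ i, 0 < x i)
    {σ : Fin m ↪ Fin d} {b : Fin m → Bool} {v : Fin m → ℝ} (hv : v ∈ NN P b)
    (hneg : neg → ∀ i, v i < 0) (hanti : Antitone (fun j => x (σ j)))
    (hmax : ∀ a ∈ Fam P d neg, ev a x ≤ FF P (fun j => x (σ j)) b v) :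
    (∀ j, |Real.log (x (σ j)) - v j| ≤ lam P b (j.val + 1)) ∧
    ∀ h : Fin d → ℤ, (∀ i, |h i| ≤ (q : ℤ)) → 0 < dot h (ext σ v) → 1 ≤ dot h (ext σ v) ∧
      δ ≤ dot (fun j => h (σ j)) (fun j => Real.log (x (σ j))) := by
  have hc := close P neg (x := fun j => x (σ j)) (fun j => hx _) hanti hv hneg (by
    intro b' v' h1 h2
    have := hmax _ ⟨σ, b', v', h1, h2, rfl⟩
    rwa [ev_ext] at this)
  refine ⟨hc, fun h hh hpos => ?_⟩
  rw [dot_ext] at hpos ⊢
  exact compat P hQ hκ hδ hv hc _ (fun i => hh _) hpos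

theorem full_family (d q : ℕ) (hd : 1 ≤ d) (hq : 1 ≤ q) (δ : ℝ) :
    ∃ A : Set ((Fin d → ℝ) × ℝ),
      (∀ x : Fin d → ℝ, (∀ i, 0 < x i) →
        ∃ a, IsMaxAt A x a ∧ Compat q δ a.1 (fun i => Real.log (x i))) ∧
      ∀ c : ℝ, ∃ B : ℝ, ∀ x : Fin d → ℝ, (∀ i, 0 < x i) → (∀ a ∈ A, ev a x ≤ c) →
        ∀ i, x i ≤ B := by
  obtain ⟨P, hQ, hκ, hδ⟩ := exists_par d q hq δ
  refine ⟨Fam P d False, fun x hx => ?_, fun c => ?_⟩
  · obtain ⟨σ, b, v, hv, hneg, hanti, hmax⟩ := exists_sorted_max P le_rfl False hx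
    obtain ⟨_, h2⟩ := max_good P hQ hκ hδ False hx hv (fun h => h.elim) hanti hmax
    refine ⟨(ext σ v, psi P b v), ⟨⟨σ, b, v, hv, hneg, rfl⟩, fun a' ha' => ?_⟩, fun h hh hpos => ?_⟩
    · rw [ev_ext]; exact hmax a' ha'
    · obtain ⟨h3, h4⟩ := h2 h hh hpos
      refine ⟨h3, ?_⟩
      have hsurj : univ.map σ = univ := by
        apply eq_univ_of_card
        simp
      have := dot_split σ (fun i => Real.log (x i)) h (l := 0) le_rfl hh
        (fun i hi => by rw [hsurj] at hi; exact absurd (mem_univ i) hi)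
      simp only [mul_zero, sub_zero] at this
      linarith
  · obtain ⟨b, n, hn, hmem⟩ := const_mem P hd
    have h1 := hmem n (le_abs_self n)
    refine ⟨(c + psi P b (fun _ => n)) / n, fun x hx hc i => ?_⟩
    have h2 := hc _ ⟨Function.Embedding.refl _, b, _, h1, fun h => h.elim, rfl⟩
    rw [ev_ext] at h2
    unfold FF at h2
    have h3 : n * x i ≤ ∑ j, n * x j :=
      single_le_sum (f := fun j => n * x j) (fun j _ => (mul_pos hn (hx j)).le) (mem_univ i)
    rw [le_div_iff₀ hn]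
    simp only [Function.Embedding.refl_apply] at h2
    linarith

theorem level_family (d m q : ℕ) (hm : 1 ≤ m) (hmd : m ≤ d) (hq : 1 ≤ q) (δ l β' : ℝ)
    (hl : 0 ≤ l) (hβ' : 0 < β') :
    ∃ A : Set ((Fin d → ℝ) × ℝ),
      (∀ x : Fin d → ℝ, (∀ i, 0 < x i) → ∀ a ∈ A, ev a x < 0) ∧
      (∃ η₀ : ℝ, 0 < η₀ ∧ ∀ x : Fin d → ℝ, (∀ i, 0 < x i) → ∃ a, IsMaxAt A x a ∧
        (-η₀ ≤ ev a x → ∃ W : Finset (Fin d), W.card = m ∧ (∀ i ∈ W, x i < β') ∧
          ((∀ i, i ∉ W → |Real.log (x i)| ≤ l) → Compat q δ a.1 (fun i => Real.log (x i))))) ∧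
      (∀ η : ℝ, 0 < η → ∃ β : ℝ, 0 < β ∧ ∀ x : Fin d → ℝ, (∀ i, 0 < x i) →
        (∀ a ∈ A, ev a x ≤ -η) → ∀ W : Finset (Fin d), W.card = m → ∃ i ∈ W, β ≤ x i) := by
  obtain ⟨P, hQ, hκ, hδ⟩ := exists_par m q hq (δ + d * (q * l))
  obtain ⟨R, hR0, hR⟩ := exists_bound P
  have hm' : (1 : ℝ) ≤ m := by exact_mod_cast hm
  have hsum : ∀ (x : Fin m → ℝ) (v : Fin m → ℝ), (∀ i, 0 < x i) → (∀ i, v i ≤ 0) →
      ∑ j, v j * x j ≤ 0 := fun x v hx hv =>
    sum_nonpos fun j _ => mul_nonpos_of_nonpos_of_nonneg (hv j) (hx j).le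
  have hpsi : ∀ b v j, Real.exp (v j - R) ≤ psi P b v := by
    intro b v j
    have h1 : Real.exp (YY P b v j) ≤ psi P b v :=
      single_le_sum (f := fun j => Real.exp (YY P b v j)) (fun _ _ => (Real.exp_pos _).le)
        (mem_univ j)
    refine le_trans (Real.exp_le_exp.2 ?_) h1
    unfold YY
    have := (hR b j).1
    have := nu_pos P b j
    split_ifs <;> linarith
  refine ⟨Fam P d True, ?_, ?_, ?_⟩
  · rintro x hx a ⟨σ, b, v, hv, hneg, rfl⟩
    rw [ev_ext]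
    unfold FF
    have h1 := hsum (fun j => x (σ j)) v (fun j => hx _) (hneg trivial)
    have h2 := hpsi b v ⟨0, hm⟩
    have h3 := Real.exp_pos (v ⟨0, hm⟩ - R)
    linarith
  · refine ⟨min (Real.exp (-R - 1)) (β' / 2 * Real.exp (-(2 * R))), by positivity, fun x hx => ?_⟩
    obtain ⟨σ, b, v, hv, hneg, hanti, hmax⟩ := exists_sorted_max P hmd True hx
    refine ⟨(ext σ v, psi P b v), ⟨⟨σ, b, v, hv, hneg, rfl⟩, fun a' ha' => ?_⟩, fun hη => ?_⟩
    · rw [ev_ext]; exact hmax a' ha'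
    rw [ev_ext] at hη
    unfold FF at hη
    have h1 := hsum (fun j => x (σ j)) v (fun j => hx _) (hneg trivial)
    have h2 : ∀ j, Real.exp (v j - R) ≤ Real.exp (-R - 1) := fun j => by
      have := hpsi b v j
      have := min_le_left (Real.exp (-R - 1)) (β' / 2 * Real.exp (-(2 * R)))
      linarith
    have h3 : ∀ j, Real.exp (v j - R) ≤ β' / 2 * Real.exp (-(2 * R)) := fun j => by
      have := hpsi b v j
      have := min_le_right (Real.exp (-R - 1)) (β' / 2 * Real.exp (-(2 * R)))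
      linarith
    have hlt : ∀ j, v j < 0 := fun j => by
      have := Real.exp_le_exp.1 (h2 j)
      linarith
    obtain ⟨h4, h5⟩ := max_good P hQ hκ hδ True hx hv (fun _ => hlt) hanti hmax
    refine ⟨univ.map σ, by simp, fun i hi => ?_, fun hlog h hh hpos => ?_⟩
    · obtain ⟨j, _, rfl⟩ := mem_map.1 hi
      have h6 := (abs_le.1 (h4 j)).2
      have h7 := (hR b j).2
      have h8 : x (σ j) ≤ Real.exp (v j + R) := by
        rw [← Real.log_le_iff_le_exp (hx _)]; linarith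
      have h9 : Real.exp (v j + R) = Real.exp (v j - R) * Real.exp (2 * R) := by
        rw [← Real.exp_add]; ring_nf
      have h10 : Real.exp (-(2 * R)) * Real.exp (2 * R) = 1 := by
        rw [← Real.exp_add]; simp
      have h11 := Real.exp_pos (2 * R)
      have h12 : Real.exp (v j - R) * Real.exp (2 * R) ≤
          β' / 2 * Real.exp (-(2 * R)) * Real.exp (2 * R) := by
        gcongr
        exact h3 j
      rw [mul_assoc, h10] at h12
      linarith
    · obtain ⟨h6, h7⟩ := h5 h hh hpos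
      refine ⟨h6, ?_⟩
      have := dot_split σ (fun i => Real.log (x i)) h hl hh hlog
      linarith
  · intro η hη
    obtain ⟨b, n₀, hn₀, hmem⟩ := const_mem P hm
    set n := n₀ + 2 * m / η with hn
    have hnpos : 0 < n := by positivity
    have h1 := hmem (-n) (by rw [abs_neg, abs_of_pos hnpos, hn]; linarith [show 0 ≤ 2 * m / η by positivity])
    refine ⟨η / (2 * n * m), by positivity, fun x hx hc W hW => ?_⟩
    by_contra hcon
    push Not at hcon
    have h2 := hc _ ⟨(W.orderEmbOfFin hW).toEmbedding, b, _, h1, fun _ _ => by linarith, rfl⟩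
    rw [ev_ext] at h2
    unfold FF psi at h2
    have h3 : ∑ j, Real.exp (YY P b (fun _ => -n) j) ≤ ∑ j : Fin m, η / (2 * m) := by
      apply sum_le_sum
      intro j _
      have h4 : YY P b (fun _ => -n) j ≤ -n := by
        unfold YY
        have := nu_pos P b j
        split_ifs <;> linarith
      refine (Real.exp_le_exp.2 h4).trans ?_
      rw [Real.exp_neg, inv_le_comm₀ (Real.exp_pos _) (by positivity), inv_div]
      have := Real.add_one_le_exp n
      linarith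
    have h4 : ∑ j : Fin m, -(η / (2 * m)) < ∑ j, -n * x ((W.orderEmbOfFin hW).toEmbedding j) := by
      apply sum_lt_sum_of_nonempty ⟨⟨0, hm⟩, mem_univ _⟩
      intro j _
      have h5 := hcon _ (W.orderEmbOfFin_mem hW j)
      have h6 : η / (2 * m) = n * (η / (2 * n * m)) := by field_simp
      rw [h6]
      have : n * x (W.orderEmbOfFin hW j) < n * (η / (2 * n * m)) := by gcongr
      simp only [RelEmbedding.coe_toEmbedding]
      linarith
    simp only [sum_const, card_univ, Fintype.card_fin, nsmul_eq_mul] at h3 h4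
    have h5 : (m : ℝ) * (η / (2 * m)) = η / 2 := by field_simp
    linarith

end Crest.Agent.R92
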