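import Crest.Agent.R92.Core4
import Crest.Prelude.Def_MassAction

/-! A slope compatible with the logarithm is a descent direction of the mass-action field. -/

set_option autoImplicit false

namespace Crest.Agent.R92

open Finset Crest.AnalysisR.MassAction

noncomputable def JJ (a s : ℝ) : ℝ := if s ≤ a then 1 else 0

lemma JJ_int (a lo hi : ℝ) : IntervalIntegrable (JJ a) MeasureTheory.volume lo hi := by
  apply Antitone.intervalIntegrable
  intro s t hst
  unfold JJ
  split_ifs with h1 h2 h2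
  · exact le_rfl
  · exact absurd (hst.trans h1) h2
  · exact zero_le_one
  · exact le_rfl

lemma JJ_integral {a lo hi : ℝ} (h1 : lo ≤ a) (h2 : a ≤ hi) : ∫ s in lo..hi, JJ a s = a - lo := by
  have : JJ a = Set.indicator {s | s ≤ a} (fun _ => (1 : ℝ)) := by
    ext s; simp [JJ, Set.indicator]
  rw [this, intervalIntegral.integral_indicator ⟨h1, h2⟩]
  simp

lemma exists_down {d : ℕ} {R : Network d} (p : (Fin d → ℕ) → Prop) {y y' : Fin d → ℕ}
    (h : Relation.ReflTransGen (fun a b => (a, b) ∈ R) y y') (hy : p y) (hy' : ¬ p y') :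
    ∃ r ∈ R, p r.1 ∧ ¬ p r.2 := by
  induction h with
  | refl => exact absurd hy hy'
  | @tail b c _ hbc ih =>
    by_cases hb : p b
    · exact ⟨(b, c), hbc, hb, hy'⟩
    · exact ih hb

theorem flux {d : ℕ} (R : Network d) (hR : IsWeaklyReversible R)
    (k : (Fin d → ℕ) × (Fin d → ℕ) → ℝ) (hk : ∀ r ∈ R, 0 < k r) :
    ∃ (q : ℕ) (δ κ₀ : ℝ), 1 ≤ q ∧ 0 < κ₀ ∧ ∀ w x : Fin d → ℝ, (∀ i, 0 < x i) →
      Compat q δ w (fun i => Real.log (x i)) →
      (∃ r ∈ R, ∑ i, w i * reactionVector r i ≠ 0) →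
      ∑ i, w i * field R k x i ≤ -(κ₀ * ∏ i, (min (x i) 1) ^ q) := by
  classical
  obtain ⟨q, hq1, hq⟩ : ∃ q : ℕ, 1 ≤ q ∧ ∀ r ∈ R, ∀ i, r.1 i ≤ q ∧ r.2 i ≤ q := by
    refine ⟨1 + ∑ r ∈ R, ∑ i, (r.1 i + r.2 i), by omega, fun r hr i => ?_⟩
    have h1 : ∑ i, (r.1 i + r.2 i) ≤ ∑ r ∈ R, ∑ i, (r.1 i + r.2 i) :=
      single_le_sum (f := fun r => ∑ i, (r.1 i + r.2 i)) (fun _ _ => Nat.zero_le _) hr
    have h2 : r.1 i + r.2 i ≤ ∑ i, (r.1 i + r.2 i) :=
      single_le_sum (f := fun i => r.1 i + r.2 i) (fun _ _ => Nat.zero_le _) (mem_univ i)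
    omega
  obtain ⟨km, hkm, hkm'⟩ : ∃ km : ℝ, 0 < km ∧ ∀ r ∈ R, km ≤ k r := by
    rcases R.eq_empty_or_nonempty with h | h
    · exact ⟨1, one_pos, by simp [h]⟩
    · obtain ⟨r, hr, hmin⟩ := exists_min_image R k h
      exact ⟨k r, hk r hr, hmin⟩
  set ks := ∑ r ∈ R, k r with hks
  have hks0 : 0 ≤ ks := sum_nonneg fun r hr => (hk r hr).le
  refine ⟨q, 2 * ks / km, km / 2, hq1, by positivity, fun w x hx hc ⟨r₀, hr₀, hr₀'⟩ => ?_⟩
  set a : (Fin d → ℕ) → ℝ := fun y => ∑ i, w i * (y i : ℝ) with ha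
  set mo : (Fin d → ℕ) → ℝ := fun y => ∏ i, x i ^ y i with hmo
  set μ := ∏ i, (min (x i) 1) ^ q with hμ
  have hmopos : ∀ y, 0 < mo y := fun y => prod_pos fun i _ => pow_pos (hx i) _
  have hμle : ∀ y : Fin d → ℕ, (∀ i, y i ≤ q) → μ ≤ mo y := by
    intro y hy
    apply prod_le_prod
    · intro i _
      exact pow_nonneg (le_min (hx i).le zero_le_one) _
    · intro i _
      calc (min (x i) 1) ^ q ≤ (min (x i) 1) ^ y i :=
            pow_le_pow_of_le_one (le_min (hx i).le zero_le_one) (min_le_right _ _) (hy i)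
        _ ≤ x i ^ y i := pow_le_pow_left₀ (le_min (hx i).le zero_le_one) (min_le_left _ _) _
  have hcomp : ∀ y y' : Fin d → ℕ, (∀ i, y i ≤ q) → (∀ i, y' i ≤ q) → a y' < a y →
      a y' + 1 ≤ a y ∧ 2 * ks * mo y' ≤ km * mo y := by
    intro y y' hy hy' hlt
    have hdot : ∀ z : Fin d → ℝ, dot (fun i => (y i : ℤ) - y' i) z =
        ∑ i, z i * (y i : ℝ) - ∑ i, z i * (y' i : ℝ) := by
      intro z
      unfold dot
      rw [← sum_sub_distrib]
      apply sum_congr rfl
      intro i _
      push_cast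
      ring
    obtain ⟨h1, h2⟩ := hc (fun i => (y i : ℤ) - y' i) (fun i => by
      have := hy i
      have := hy' i
      rw [abs_le]
      constructor <;> omega) (by rw [hdot]; linarith)
    rw [hdot] at h1 h2
    refine ⟨by linarith, ?_⟩
    have hlog : ∀ z : Fin d → ℕ, mo z = Real.exp (∑ i, Real.log (x i) * (z i : ℝ)) := by
      intro z
      rw [Real.exp_sum]
      apply prod_congr rfl
      intro i _
      rw [mul_comm, Real.exp_nat_mul, Real.exp_log (hx i)]
    have h3 : mo y' * Real.exp (2 * ks / km) ≤ mo y := by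
      rw [hlog, hlog, ← Real.exp_add]
      apply Real.exp_le_exp.2
      linarith
    have h4 := Real.add_one_le_exp (2 * ks / km)
    have h5 : mo y' * (2 * ks / km) ≤ mo y := by
      have := hmopos y'
      nlinarith
    rw [← mul_div_assoc, div_le_iff₀ hkm] at h5
    linarith
  have hrv : ∀ r : (Fin d → ℕ) × (Fin d → ℕ), ∑ i, w i * reactionVector r i = a r.2 - a r.1 := by
    intro r
    simp only [ha, reactionVector, mul_sub, sum_sub_distrib]
  have htot : ∑ i, w i * field R k x i = ∑ r ∈ R, k r * mo r.1 * (a r.2 - a r.1) := by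
    simp only [field, Finset.sum_apply, Pi.smul_apply, smul_eq_mul, mul_sum]
    rw [sum_comm]
    apply sum_congr rfl
    intro r _
    rw [← hrv, mul_sum]
    apply sum_congr rfl
    intro i _
    ring
  rw [hrv] at hr₀'
  set l := min (a r₀.1) (a r₀.2) with hl
  set u := max (a r₀.1) (a r₀.2) with hu
  have hlu : l + 1 ≤ u := by
    rcases lt_trichotomy (a r₀.1) (a r₀.2) with h | h | h
    · rw [hl, hu, min_eq_left h.le, max_eq_right h.le]
      exact (hcomp _ _ (fun i => (hq r₀ hr₀ i).2) (fun i => (hq r₀ hr₀ i).1) h).1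
    · exact absurd (by linarith) hr₀'
    · rw [hl, hu, min_eq_right h.le, max_eq_left h.le]
      exact (hcomp _ _ (fun i => (hq r₀ hr₀ i).1) (fun i => (hq r₀ hr₀ i).2) h).1
  have hμ0 : 0 ≤ μ := prod_nonneg fun i _ => pow_nonneg (le_min (hx i).le zero_le_one) _
  -- pointwise flux bound
  have hflux : ∀ s : ℝ, ∑ r ∈ R, k r * mo r.1 * (JJ (a r.2) s - JJ (a r.1) s) ≤
      -(km / 2 * μ) * (JJ u s - JJ l s) := by
    intro s
    by_cases hcross : ∃ r ∈ R, s ≤ a r.1 ∧ ¬ s ≤ a r.2
    · obtain ⟨r', hr', h1, h2⟩ := hcross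
      have h3 : ∑ r ∈ R, k r * mo r.1 * (JJ (a r.2) s - JJ (a r.1) s) * (2 * ks) ≤
          ∑ r ∈ R, (k r * (km * mo r'.1) - if r = r' then km * mo r'.1 * (2 * ks) else 0) := by
        apply sum_le_sum
        intro r hr
        have hkr := hk r hr
        have hm1 := hmopos r.1
        have hm2 := hmopos r'.1
        by_cases hrr : r = r'
        · subst hrr
          rw [if_pos rfl]
          unfold JJ
          rw [if_neg h2, if_pos h1]
          have := hkm' r hr
          have h5 : km * mo r.1 * (2 * ks) ≤ k r * mo r.1 * (2 * ks) := by gcongr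
          have h6 : 0 ≤ k r * (km * mo r.1) := by positivity
          linarith
        · rw [if_neg hrr, sub_zero]
          unfold JJ
          by_cases h4 : s ≤ a r.1
          · rw [if_pos h4]
            have h5 : (if s ≤ a r.2 then (1 : ℝ) else 0) - 1 ≤ 0 := by split_ifs <;> norm_num
            have h6 : 0 ≤ k r * (km * mo r'.1) := by positivity
            have h7 : k r * mo r.1 * ((if s ≤ a r.2 then (1 : ℝ) else 0) - 1) * (2 * ks) ≤ 0 := by
              apply mul_nonpos_of_nonpos_of_nonneg _ (by positivity)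
              exact mul_nonpos_of_nonneg_of_nonpos (by positivity) h5
            linarith
          · rw [if_neg h4, sub_zero]
            have h5 := (hcomp r'.1 r.1 (fun i => (hq r' hr' i).1) (fun i => (hq r hr i).1)
              (by linarith)).2
            have h6 : (if s ≤ a r.2 then (1 : ℝ) else 0) ≤ 1 := by split_ifs <;> norm_num
            calc k r * mo r.1 * (if s ≤ a r.2 then (1 : ℝ) else 0) * (2 * ks)
                ≤ k r * mo r.1 * 1 * (2 * ks) := by gcongr
              _ = k r * (2 * ks * mo r.1) := by ring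
              _ ≤ k r * (km * mo r'.1) := by gcongr
      rw [sum_sub_distrib, ← sum_mul, ← sum_mul, sum_ite_eq', if_pos hr', ← hks] at h3
      have hkspos : 0 < ks := lt_of_lt_of_le (hk r' hr')
        (single_le_sum (f := k) (fun r hr => (hk r hr).le) hr')
      have h4 : ∑ r ∈ R, k r * mo r.1 * (JJ (a r.2) s - JJ (a r.1) s) ≤ -(km / 2 * mo r'.1) := by
        have : (∑ r ∈ R, k r * mo r.1 * (JJ (a r.2) s - JJ (a r.1) s)) * (2 * ks) ≤
            -(km / 2 * mo r'.1) * (2 * ks) := by linarith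
        exact le_of_mul_le_mul_right this (by linarith)
      have h5 := hμle r'.1 (fun i => (hq r' hr' i).1)
      have h6 : JJ u s - JJ l s ≤ 1 := by unfold JJ; split_ifs <;> norm_num
      have h7 : 0 ≤ km / 2 * μ := by positivity
      nlinarith
    · have hno : ∀ r ∈ R, (s ≤ a r.1 ↔ s ≤ a r.2) := by
        intro r hr
        constructor
        · intro h
          by_contra h'
          exact hcross ⟨r, hr, h, h'⟩
        · intro h
          by_contra h'
          exact hcross (exists_down (fun y => s ≤ a y) (hR r hr) h h')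
      have h1 : ∑ r ∈ R, k r * mo r.1 * (JJ (a r.2) s - JJ (a r.1) s) = 0 := by
        apply sum_eq_zero
        intro r hr
        unfold JJ
        simp [hno r hr]
      have h2 : JJ u s - JJ l s = 0 := by
        unfold JJ
        have := hno r₀ hr₀
        simp [hu, hl, this]
      rw [h1, h2]
      simp
  obtain ⟨lo, hi, hlo⟩ : ∃ lo hi : ℝ, ∀ r ∈ R, (lo ≤ a r.1 ∧ a r.1 ≤ hi) ∧
      (lo ≤ a r.2 ∧ a r.2 ≤ hi) := by
    refine ⟨-∑ r ∈ R, (|a r.1| + |a r.2|), ∑ r ∈ R, (|a r.1| + |a r.2|), fun r hr => ?_⟩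
    have h1 : |a r.1| + |a r.2| ≤ ∑ r ∈ R, (|a r.1| + |a r.2|) :=
      single_le_sum (f := fun r => |a r.1| + |a r.2|) (fun _ _ => by positivity) hr
    have h2 := abs_nonneg (a r.1)
    have h3 := abs_nonneg (a r.2)
    exact ⟨abs_le.1 (by linarith), abs_le.1 (by linarith)⟩
  obtain ⟨⟨h01, h02⟩, h03, h04⟩ := hlo r₀ hr₀
  have hint := intervalIntegral.integral_mono (μ := MeasureTheory.volume) (h01.trans h02)
    (f := fun s => ∑ r ∈ R, k r * mo r.1 * (JJ (a r.2) s - JJ (a r.1) s))
    (g := fun s => -(km / 2 * μ) * (JJ u s - JJ l s))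
    (by
      have := IntervalIntegrable.sum (μ := MeasureTheory.volume) (a := lo) (b := hi) R
        (f := fun r s => k r * mo r.1 * (JJ (a r.2) s - JJ (a r.1) s))
        (fun r _ => ((JJ_int _ _ _).sub (JJ_int _ _ _)).const_mul _)
      rw [Finset.sum_fn] at this
      exact this)
    (((JJ_int _ _ _).sub (JJ_int _ _ _)).const_mul _) hflux
  rw [intervalIntegral.integral_finsetSum
    (fun r _ => ((JJ_int _ _ _).sub (JJ_int _ _ _)).const_mul _),
    intervalIntegral.integral_const_mul,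
    intervalIntegral.integral_sub (JJ_int _ _ _) (JJ_int _ _ _),
    JJ_integral (le_max_of_le_left h01) (max_le h02 h04),
    JJ_integral (le_min h01 h03) (min_le_of_left_le h02)] at hint
  rw [htot]
  have h1 : ∑ r ∈ R, k r * mo r.1 * (a r.2 - a r.1) =
      ∑ r ∈ R, ∫ s in lo..hi, k r * mo r.1 * (JJ (a r.2) s - JJ (a r.1) s) := by
    apply sum_congr rfl
    intro r hr
    obtain ⟨⟨h1, h2⟩, h3, h4⟩ := hlo r hr
    rw [intervalIntegral.integral_const_mul,
      intervalIntegral.integral_sub (JJ_int _ _ _) (JJ_int _ _ _),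
      JJ_integral h1 h2, JJ_integral h3 h4]
    ring
  rw [h1]
  have h7 : 0 ≤ km / 2 * μ := by positivity
  nlinarith

end Crest.Agent.R92
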