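import Crest.Agent.R92.Barrier
import Crest.Agent.R92.Flux

/-! The tower of barriers, and the ODE facts. -/

set_option autoImplicit false

namespace Crest.Agent.R92

open Finset Set Filter Topology Crest.AnalysisR.MassAction

variable {d : ℕ}

lemma orth {R : Network d} {c x w : Fin d → ℝ} (hx : x ∈ positiveClass R c)
    (hw : ∀ r ∈ R, ∑ i, w i * reactionVector r i = 0) : ∑ i, w i * x i = ∑ i, w i * c i := by
  have : ∀ y ∈ stoichSubspace R, ∑ i, w i * y i = 0 := by
    intro y hy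
    induction hy using Submodule.span_induction with
    | mem y hy =>
      obtain ⟨r, hr, rfl⟩ := hy
      exact hw r hr
    | zero => simp
    | add y z _ _ h1 h2 =>
      simp only [Pi.add_apply, mul_add, sum_add_distrib, h1, h2, add_zero]
    | smul a y _ h1 =>
      have : ∑ i, w i * (a • y) i = a * ∑ i, w i * y i := by
        rw [mul_sum]
        apply sum_congr rfl
        intro i _
        simp only [Pi.smul_apply, smul_eq_mul]
        ring
      rw [this, h1, mul_zero]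
  have h := this _ hx.2
  simp only [Pi.sub_apply, mul_sub, sum_sub_distrib] at h
  linarith

theorem tower (hd : 1 ≤ d) (R : Network d) (hR : IsWeaklyReversible R)
    (k : (Fin d → ℕ) × (Fin d → ℕ) → ℝ) (hk : ∀ r ∈ R, 0 < k r)
    (c : Fin d → ℝ) (hc : ∀ i, 0 < c i) (x₀ : Fin d → ℝ) (hx₀ : x₀ ∈ positiveClass R c) :
    ∃ G, Nice (field R k) (positiveClass R c) c x₀ G ∧ IsCompact G ∧ Convex ℝ G := by
  classical
  obtain ⟨q, δ, κ₀, hq, hκ₀, hflux⟩ := flux R hR k hk
  set P := positiveClass R c with hP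
  have hcP : c ∈ P := ⟨hc, by simp⟩
  have hPpos : P ⊆ Pos d := fun x hx => hx.1
  set rate : (Fin d → ℝ) → ℝ := fun x => κ₀ * ∏ i, (min (x i) 1) ^ q with hrate
  have hrc : Continuous rate := by rw [hrate]; fun_prop
  have hrp : ∀ x ∈ Pos d, 0 < rate x := fun x hx =>
    mul_pos hκ₀ (prod_pos fun i _ => pow_pos (lt_min (hx i) one_pos) _)
  have hdesc : ∀ x ∈ P, ∀ α : (Fin d → ℝ) × ℝ, ev α c < ev α x →
      Compat q δ α.1 (fun i => Real.log (x i)) → ∑ i, α.1 i * field R k x i ≤ -rate x := by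
    intro x hx α hlt hcomp
    apply hflux α.1 x hx.1 hcomp
    by_contra hcon
    push Not at hcon
    have := orth hx hcon
    unfold ev at hlt
    linarith
  -- stage 0
  obtain ⟨G₀, hG₀, B, hB⟩ : ∃ G, Nice (field R k) P c x₀ G ∧ ∃ B : ℝ, ∀ x ∈ G, ∀ i, x i ≤ B := by
    obtain ⟨A, hA, hA'⟩ := full_family d q hd hq δ
    have hA1 : ∀ x ∈ Pos d, ∃ a, IsMaxAt A x a := fun x hx => (hA x hx).imp fun a ha => ha.1
    set c' := max (VV A c) (VV A x₀) + 1 with hc'
    obtain ⟨B, hB⟩ := hA' c'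
    have h1 : ∀ a ∈ A, ev a c < c' := fun a ha => by
      have := ev_le_VV hA1 hc ha
      have := le_max_left (VV A c) (VV A x₀)
      linarith
    refine ⟨_, (Nice.base hcP hx₀).step hPpos hrc hrp hA1 (c := c') ?_
      (fun a ha => (h1 a ha).le) ?_, B, fun x hx => hB x hx.1.1 hx.2⟩
    · intro x hx
      obtain ⟨α, hα, hcomp⟩ := hA x hx.1
      exact ⟨α, hα, fun h => hdesc x hx α ((h1 α hα.1).trans_le h) hcomp⟩
    · intro a ha
      have := ev_le_VV hA1 hx₀.1 ha
      have := le_max_right (VV A c) (VV A x₀)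
      linarith
  -- the levels
  have hlev : ∀ r : ℕ, r ≤ d → ∃ G, Nice (field R k) P c x₀ G ∧ (∀ x ∈ G, ∀ i, x i ≤ B) ∧
      ∃ β : ℝ, 0 < β ∧ ∀ x ∈ G, ∀ W : Finset (Fin d), W.card = d + 1 - r → ∃ i ∈ W, β ≤ x i := by
    intro r
    induction r with
    | zero =>
      intro _
      refine ⟨G₀, hG₀, hB, 1, one_pos, fun x _ W hW => ?_⟩
      have := card_le_univ W
      simp only [Fintype.card_fin] at this
      omega
    | succ r ih =>
      intro hr
      obtain ⟨G, hG, hGB, β', hβ', hlow⟩ := ih (by omega)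
      obtain ⟨A, hneg, ⟨η₀, hη₀, hgood⟩, hA'⟩ := level_family d (d - r) q (by omega) (by omega) hq δ
        (|Real.log B| + |Real.log β'|) β' (by positivity) hβ'
      have hA1 : ∀ x ∈ Pos d, ∃ a, IsMaxAt A x a := fun x hx => (hgood x hx).imp fun a ha => ha.1
      have hV : ∀ x ∈ Pos d, VV A x < 0 := fun x hx => by
        obtain ⟨a, ha⟩ := hA1 x hx
        rw [ha.VV_eq]
        exact hneg x hx a ha.1
      have hV0 := hV c hc
      have hV1 := hV x₀ hx₀.1
      set η := min η₀ (min (-VV A c / 2) (-VV A x₀)) with hη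
      have hηpos : 0 < η := lt_min hη₀ (lt_min (by linarith) (by linarith))
      have hη1 : η ≤ η₀ := min_le_left _ _
      have hη2 : η ≤ -VV A c / 2 := (min_le_right _ _).trans (min_le_left _ _)
      have hη3 : η ≤ -VV A x₀ := (min_le_right _ _).trans (min_le_right _ _)
      obtain ⟨β, hβ, hlow'⟩ := hA' η hηpos
      have h1 : ∀ a ∈ A, ev a c < -η := fun a ha => by
        have := ev_le_VV hA1 hc ha
        linarith
      refine ⟨_, hG.step hPpos hrc hrp hA1 (c := -η) ?_ (fun a ha => (h1 a ha).le) ?_,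
        fun x hx => hGB x hx.1, β, hβ, fun x hx W hW => hlow' x (hG.subset hx.1).1 hx.2 W
          (by omega)⟩
      · intro x hx
        have hxP := hG.subset hx
        obtain ⟨α, hα, hcomp⟩ := hgood x hxP.1
        refine ⟨α, hα, fun h => hdesc x hxP α ((h1 α hα.1).trans_le h) ?_⟩
        obtain ⟨W, hW, hsmall, hcomp'⟩ := hcomp (by linarith)
        apply hcomp'
        intro i hi
        obtain ⟨j, hj, hβj⟩ := hlow x hx (insert i W) (by rw [card_insert_of_notMem hi]; omega)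
        have hij : j = i := by
          rcases Finset.mem_insert.1 hj with h | h
          · exact h
          · exact absurd (hsmall j h) (not_lt.2 hβj)
        subst hij
        have h2 : Real.log β' ≤ Real.log (x j) := Real.log_le_log hβ' hβj
        have h3 : Real.log (x j) ≤ Real.log B := Real.log_le_log (hxP.1 j) (hGB x hx j)
        have h4 := abs_nonneg (Real.log B)
        have h5 := abs_nonneg (Real.log β')
        have h6 := le_abs_self (Real.log B)
        have h7 := neg_abs_le (Real.log β')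
        rw [abs_le]
        constructor <;> linarith
      · intro a ha
        have := ev_le_VV hA1 hx₀.1 ha
        linarith
  obtain ⟨G, hG, hGB, β, hβ, hlow⟩ := hlev d le_rfl
  obtain ⟨C, hC1, hC2, hGC⟩ := hG.repr
  refine ⟨G, hG, ?_, ?_⟩
  · have : G = Set.Icc (fun _ => β) (fun _ => B) ∩
        (((fun x => x - c) ⁻¹' (stoichSubspace R : Set (Fin d → ℝ))) ∩ C) := by
      ext x
      constructor
      · intro hx
        refine ⟨⟨fun i => ?_, fun i => hGB x hx i⟩, (hG.subset hx).2, (hGC ▸ hx).2⟩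
        obtain ⟨j, hj, h⟩ := hlow x hx {i} (by simp)
        rw [Finset.mem_singleton] at hj
        rwa [hj] at h
      · rintro ⟨h1, h2, h3⟩
        rw [hGC]
        exact ⟨⟨fun i => hβ.trans_le (h1.1 i), h2⟩, h3⟩
    rw [this]
    refine isCompact_Icc.inter_right (IsClosed.inter ?_ hC1)
    exact (Submodule.closed_of_finiteDimensional _).preimage (by fun_prop)
  · rw [hGC]
    refine Convex.inter ?_ hC2
    intro x hx y hy s t hs ht hst
    refine ⟨Pos_convex hx.1 hy.1 hs ht hst, ?_⟩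
    have : s • x + t • y - c = s • (x - c) + t • (y - c) := by
      have h1 : c = s • c + t • c := by rw [← add_smul, hst, one_smul]
      rw [smul_sub, smul_sub]
      nth_rewrite 1 [h1]
      abel
    rw [this]
    exact Submodule.add_mem _ (Submodule.smul_mem _ _ hx.2) (Submodule.smul_mem _ _ hy.2)

lemma fwd_cont {g : (Fin d → ℝ) → (Fin d → ℝ)} {x : ℝ → Fin d → ℝ} (hx : IsForwardSolution g x) :
    ContinuousOn x (Ici 0) := fun t ht => (hx t ht).continuousWithinAt

lemma fwd_sol {g : (Fin d → ℝ) → (Fin d → ℝ)} {x : ℝ → Fin d → ℝ} (hx : IsForwardSolution g x)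
    (b : ℝ) : Sol g x 0 b :=
  ⟨(fwd_cont hx).mono Icc_subset_Ici_self, fun t ht =>
    ((hx t ht.1.le).hasDerivAt (Ici_mem_nhds ht.1)).hasDerivWithinAt⟩

lemma fwd_right {g : (Fin d → ℝ) → (Fin d → ℝ)} {x : ℝ → Fin d → ℝ} (hx : IsForwardSolution g x)
    {t : ℝ} (ht : 0 ≤ t) : HasDerivWithinAt x (g (x t)) (Ici t) t :=
  (hx t ht).mono (Ici_subset_Ici.2 ht)

lemma class_inv {g : (Fin d → ℝ) → (Fin d → ℝ)} {x : ℝ → Fin d → ℝ} (hx : IsForwardSolution g x)
    (S : Submodule ℝ (Fin d → ℝ)) (hg : ∀ y, g y ∈ S) {t : ℝ} (ht : 0 ≤ t) : x t - x 0 ∈ S := by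
  rw [← Subspace.forall_mem_dualAnnihilator_apply_eq_zero_iff]
  intro φ hφ
  rw [Submodule.mem_dualAnnihilator] at hφ
  have := constant_of_has_deriv_right_zero (f := fun s => φ.toContinuousLinearMap (x s)) (a := 0)
    (b := t) (φ.toContinuousLinearMap.continuous.comp_continuousOn
      ((fwd_cont hx).mono Icc_subset_Ici_self)) (fun s hs => by
        have h1 := φ.toContinuousLinearMap.hasFDerivAt.comp_hasDerivWithinAt s (fwd_right hx hs.1)
        have h2 : φ.toContinuousLinearMap (g (x s)) = 0 := hφ _ (hg _)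
        rw [h2] at h1
        exact h1) t (right_mem_Icc.2 ht)
  rw [map_sub, sub_eq_zero]
  exact this

lemma field_mem (R : Network d) (k : (Fin d → ℕ) × (Fin d → ℕ) → ℝ) (y : Fin d → ℝ) :
    field R k y ∈ stoichSubspace R :=
  Submodule.sum_mem _ fun r hr => Submodule.smul_mem _ _ (Submodule.subset_span ⟨r, hr, rfl⟩)

lemma field_contDiff (R : Network d) (k : (Fin d → ℕ) × (Fin d → ℕ) → ℝ) :
    ContDiff ℝ 1 (field R k) := by
  unfold field
  fun_prop

lemma stay {R : Network d} {f g : (Fin d → ℝ) → (Fin d → ℝ)} {c x₀ : Fin d → ℝ}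
    {G U : Set (Fin d → ℝ)} (hG : Nice f (positiveClass R c) c x₀ G) (hGc : IsClosed G)
    (hU : IsOpen U) (hGU : G ⊆ U) (hfg : ∀ y ∈ U, g y = f y) (hg : ∀ y, g y ∈ stoichSubspace R)
    {x : ℝ → Fin d → ℝ} (hx : IsForwardSolution g x) (hx0 : x 0 ∈ G) :
    ∀ t, 0 ≤ t → x t ∈ G := by
  intro b hb
  have hcl : IsClosed (x ⁻¹' G ∩ Icc 0 b) := by
    rw [inter_comm]
    exact ((fwd_cont hx).mono Icc_subset_Ici_self).preimage_isClosed_of_isClosed isClosed_Icc hGc
  refine hcl.Icc_subset_of_forall_mem_nhdsWithin hx0 ?_ (right_mem_Icc.2 hb)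
  rintro t ⟨htG, ht⟩
  have h1 : x ⁻¹' (U ∩ Pos d) ∈ 𝓝[≥] t :=
    (fwd_right hx ht.1).continuousWithinAt
      ((hU.inter Pos_open).mem_nhds ⟨hGU htG, (hG.subset htG).1⟩)
  obtain ⟨u, hu, hsub⟩ := mem_nhdsGE_iff_exists_Icc_subset.1 h1
  filter_upwards [Ioc_mem_nhdsGT hu] with s hs
  have hsol := (fwd_sol hx s).mono ht.1 le_rfl
  refine hG.inv x t s hs.1.le ⟨hsol.1, fun r hr => ?_⟩ (fun r hr => ⟨?_, ?_⟩) htG
  · rw [← hfg _ (hsub ⟨hr.1.le, hr.2.trans hs.2⟩).1]
    exact hsol.2 r hr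
  · exact (hsub ⟨hr.1, hr.2.trans hs.2⟩).2
  · have h2 := class_inv hx _ hg (ht.1.trans hr.1)
    have h3 := (hG.subset hx0).2
    have : x r - c = (x r - x 0) + (x 0 - c) := by abel
    rw [this]
    exact Submodule.add_mem _ h2 h3

lemma global_exists {g : (Fin d → ℝ) → (Fin d → ℝ)} {K : NNReal} (hK : LipschitzWith K g)
    {L : ℝ} (hL : ∀ y, ‖g y‖ ≤ L) (x₀ : Fin d → ℝ) :
    ∃ x : ℝ → Fin d → ℝ, IsForwardSolution g x ∧ x 0 = x₀ := by
  have hL0 : 0 ≤ L := (norm_nonneg _).trans (hL 0)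
  have hloc : ∀ n : ℕ, ∃ α : ℝ → Fin d → ℝ, α 0 = x₀ ∧
      ∀ t ∈ Icc (0 : ℝ) n, HasDerivWithinAt α (g (α t)) (Icc (0 : ℝ) n) t := by
    intro n
    have hpl : IsPicardLindelof (fun _ => g) (tmin := 0) (tmax := n)
        ⟨0, left_mem_Icc.2 (by positivity)⟩ x₀ (⟨L, hL0⟩ * n) 0 ⟨L, hL0⟩ K := by
      refine ⟨fun _ _ => hK.lipschitzOnWith, fun _ _ => continuousOn_const,
        fun _ _ y _ => hL y, ?_⟩
      simp
    exact hpl.exists_eq_forall_mem_Icc_hasDerivWithinAt₀
  choose α hα0 hα using hloc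
  have hright : ∀ (n : ℕ) (t : ℝ), t ∈ Ico (0 : ℝ) n →
      HasDerivWithinAt (α n) (g (α n t)) (Ici t) t := fun n t ht =>
    (hα n t (Ico_subset_Icc_self ht)).mono_of_mem_nhdsWithin (Icc_mem_nhdsGE_of_mem ht)
  have hcont : ∀ n : ℕ, ContinuousOn (α n) (Icc (0 : ℝ) n) := fun n t ht =>
    (hα n t ht).continuousWithinAt
  have huniq : ∀ (n m : ℕ) (t : ℝ), 0 ≤ t → t ≤ n → t ≤ m → α n t = α m t := by
    intro n m t h0 h1 h2
    exact ODE_solution_unique (v := fun _ => g) (K := K) (a := 0) (b := t) (fun _ => hK)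
      ((hcont n).mono (Icc_subset_Icc_right h1))
      (fun s hs => hright n s ⟨hs.1, hs.2.trans_le h1⟩)
      ((hcont m).mono (Icc_subset_Icc_right h2))
      (fun s hs => hright m s ⟨hs.1, hs.2.trans_le h2⟩) (by rw [hα0, hα0]) (right_mem_Icc.2 h0)
  refine ⟨fun t => α ⌈t⌉₊ t, fun t ht => ?_, hα0 _⟩
  set n := ⌈t⌉₊ + 1 with hn
  have htn : t < n := by
    rw [hn]; push_cast
    linarith [Nat.le_ceil t]
  have hmem : Icc (0 : ℝ) n ∈ 𝓝[Ici 0] t := by
    apply mem_nhdsWithin.2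
    exact ⟨Iio n, isOpen_Iio, htn, fun s hs => ⟨hs.2, hs.1.le⟩⟩
  have heq : ∀ s ∈ Icc (0 : ℝ) n, α ⌈s⌉₊ s = α n s := fun s hs =>
    huniq _ _ s hs.1 (Nat.le_ceil s) hs.2
  have h1 := (hα n t ⟨ht, htn.le⟩).mono_of_mem_nhdsWithin hmem
  have h2 := heq t ⟨ht, htn.le⟩
  simp only
  rw [h2]
  refine h1.congr_of_eventuallyEq ?_ h2
  filter_upwards [hmem] with s hs using heq s hs

end Crest.Agent.R92
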